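import Claimed.Agent.R289.Ppp

/-!
# Row 289 (S0537), box VORDEL, file Vor/Basic : DETERMINISTIC VORONOI GEOMETRY, soft part      (owner / head of the box: helper253; prefix `vor`, `Vor`, `pvv_`)

Everything is a statement on a SITE SET `Y : Set ℂ`; no probability.      TEX[Cardy:intro:geometry] (Sec. 0.5 "Geometry, bulk patches"), TEX[Cardy:lemma:mesh] (i) (deterministic half).
* `vorCell Y v`   the closed cell;   `cfSites η`, `cfCell_eq_vor`, `cfBlack_eq_vor`: bridge to the vocabulary of helper267 (`Ppp.lean`) and so to the frozen `pvCell`, `pvBlack`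
* `VorLF Y`  locally finite;   `VorDense Y K ρ`  every point of `K` has a site within `ρ`;   `vorDet a b c`  oriented area;   `VorGP Y`  general position
* V1  cells are closed, convex, contain their site, cover the plane (`vor_cover`), locally finite family (`vor_finite_meet`), closed unions (`vor_isClosed_iUnion`)
* V2  density: `vor_site_near`, `vor_cell_subset_ball`, `vor_cell_compact`
* V3  LOC (`vor_loc`, `vor_loc_cell`, `vor_loc_black`): inside `K` the tessellation depends only on `Y ∩ K^{+ρ}`, whatever happens outside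
* V7  `vor_block_connected`: the cells meeting a preconnected set form a connected block, consecutive cells meeting INSIDE the set;   `vor_chain_connected` the converse for convex windows
* `vor_lf_pv`: the sites of a frozen sample are locally finite (deterministic).
-/

set_option autoImplicit false

namespace Claimed.Agent.R289

open Set Metric Claims.C0465

/-! ## 0. definitions -/

/-- the closed Voronoi cell of `v` for the site set `Y` -/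
def vorCell (Y : Set ℂ) (v : ℂ) : Set ℂ := {z | ∀ u ∈ Y, ‖z - v‖ ≤ ‖z - u‖}

/-- locally finite site set -/
def VorLF (Y : Set ℂ) : Prop := ∀ R : ℝ, (Y ∩ closedBall (0 : ℂ) R).Finite

/-- every point of `K` has a site within `ρ` -/
def VorDense (Y K : Set ℂ) (ρ : ℝ) : Prop := ∀ z ∈ K, ∃ u ∈ Y, ‖z - u‖ ≤ ρ

/-- closed `ρ`-neighbourhood -/
def vorNbd (K : Set ℂ) (ρ : ℝ) : Set ℂ := {w | ∃ z ∈ K, ‖w - z‖ ≤ ρ}

/-- twice the oriented area of the triangle `a b c` (positive: `c` is on the left of `a → b`) -/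
def vorDet (a b c : ℂ) : ℝ := (b.re - a.re) * (c.im - a.im) - (b.im - a.im) * (c.re - a.re)

/-- general position: no three collinear sites, no four cocircular sites -/
structure VorGP (Y : Set ℂ) : Prop where
  col : ∀ a ∈ Y, ∀ b ∈ Y, ∀ c ∈ Y, a ≠ b → a ≠ c → b ≠ c → vorDet a b c ≠ 0
  cir : ∀ a ∈ Y, ∀ b ∈ Y, ∀ c ∈ Y, ∀ d ∈ Y, a ≠ b → a ≠ c → a ≠ d → b ≠ c → b ≠ d → c ≠ d →
    ∀ z : ℂ, ¬ (‖z - a‖ = ‖z - b‖ ∧ ‖z - a‖ = ‖z - c‖ ∧ ‖z - a‖ = ‖z - d‖)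

/-- the sites whose cell meets `S` -/
def vorMeet (Y S : Set ℂ) : Set ℂ := {v | v ∈ Y ∧ (vorCell Y v ∩ S).Nonempty}

/-- two different sites whose cells meet inside `S` -/
def VorAdjIn (Y S : Set ℂ) (a b : ℂ) : Prop := a ∈ Y ∧ b ∈ Y ∧ a ≠ b ∧ (vorCell Y a ∩ vorCell Y b ∩ S).Nonempty

/-- the sites of a coloured configuration -/
def cfSites (η : Conf PvPt) : Set ℂ := Prod.fst '' η.pts

/-- the union of the cells of a set `A` of sites -/
def vorUn (Y A : Set ℂ) : Set ℂ := {z | ∃ v ∈ A, z ∈ vorCell Y v}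

theorem vor_basic_eqns_cite : True := by
  have := @vorCell.eq_1
  have := @VorLF.eq_1
  have := @VorDense.eq_1
  have := @vorNbd.eq_1
  have := @vorDet.eq_1
  have := @vorMeet.eq_1
  have := @VorAdjIn.eq_1
  have := @cfSites.eq_1
  have := @vorUn.eq_1
  trivial

/-! ## 1. bridge -/

theorem cfCell_eq_vor (η : Conf PvPt) (v : ℂ) : cfCell η v = vorCell (cfSites η) v := by
  ext z
  simp only [cfCell, vorCell, cfSites, mem_ofPred_eq, mem_image]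
  constructor
  · rintro h _ ⟨p, hp, rfl⟩
    exact h p hp
  · intro h p hp
    exact h _ ⟨p, hp, rfl⟩

theorem cfBlack_eq_vor (η : Conf PvPt) : cfBlack η = vorUn (cfSites η) {v | (v, true) ∈ η.pts} := by
  ext z
  simp only [cfBlack, vorUn, mem_ofPred_eq, cfCell_eq_vor]
  constructor
  · rintro ⟨⟨v, c⟩, hp, hc, hz⟩
    simp only at hc
    subst hc
    exact ⟨v, hp, hz⟩
  · rintro ⟨v, hv, hz⟩
    exact ⟨(v, true), hv, rfl, hz⟩

/-! ## 2. V1: cells -/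

theorem vor_mem_cell {Y : Set ℂ} {v z : ℂ} : z ∈ vorCell Y v ↔ ∀ u ∈ Y, ‖z - v‖ ≤ ‖z - u‖ := Iff.rfl

theorem vor_self_mem (Y : Set ℂ) (v : ℂ) : v ∈ vorCell Y v := fun u _ => by
  rw [sub_self, norm_zero]; exact norm_nonneg _

theorem vor_cell_anti {Y Y' : Set ℂ} (h : Y ⊆ Y') (v : ℂ) : vorCell Y' v ⊆ vorCell Y v := fun _ hz u hu => hz u (h hu)

theorem vor_isClosed_cell (Y : Set ℂ) (v : ℂ) : IsClosed (vorCell Y v) := by
  have : vorCell Y v = ⋂ u ∈ Y, {z : ℂ | ‖z - v‖ ≤ ‖z - u‖} := by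
    ext z; simp [vorCell]
  rw [this]
  exact isClosed_biInter fun u _ => isClosed_le (by fun_prop) (by fun_prop)

/-- the half plane form of one constraint -/
theorem vor_half (z v u : ℂ) : ‖z - v‖ ≤ ‖z - u‖ ↔
    2 * (z.re * (u.re - v.re) + z.im * (u.im - v.im)) ≤ (u.re ^ 2 + u.im ^ 2) - (v.re ^ 2 + v.im ^ 2) := by
  rw [← abs_of_nonneg (norm_nonneg (z - v)), ← abs_of_nonneg (norm_nonneg (z - u)), ← sq_le_sq, Complex.sq_norm, Complex.sq_norm,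
    Complex.normSq_apply, Complex.normSq_apply]
  simp only [Complex.sub_re, Complex.sub_im]
  constructor <;> intro h <;> nlinarith

theorem vor_convex_cell (Y : Set ℂ) (v : ℂ) : Convex ℝ (vorCell Y v) := by
  intro x hx y hy s t hs ht hst u hu
  have h1 := (vor_half x v u).1 (hx u hu)
  have h2 := (vor_half y v u).1 (hy u hu)
  rw [vor_half]
  simp only [Complex.add_re, Complex.add_im, Complex.real_smul, Complex.mul_re, Complex.mul_im, Complex.ofReal_re, Complex.ofReal_im, zero_mul,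
    sub_zero, add_zero]
  have e1 := mul_le_mul_of_nonneg_left h1 hs
  have e2 := mul_le_mul_of_nonneg_left h2 ht
  have e3 : (u.re ^ 2 + u.im ^ 2) - (v.re ^ 2 + v.im ^ 2) = s * ((u.re ^ 2 + u.im ^ 2) - (v.re ^ 2 + v.im ^ 2)) + t * ((u.re ^ 2 + u.im ^ 2) - (v.re ^ 2 + v.im ^ 2)) := by
    rw [← add_mul, hst, one_mul]
  rw [e3]
  nlinarith

theorem VorLF.finite_ball {Y : Set ℂ} (h : VorLF Y) (z : ℂ) (R : ℝ) : (Y ∩ closedBall z R).Finite := by
  refine (h (‖z‖ + R)).subset fun u hu => ⟨hu.1, ?_⟩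
  have h2 := hu.2
  rw [mem_closedBall, dist_eq_norm] at h2
  rw [mem_closedBall, dist_zero_right]
  calc ‖u‖ = ‖z + (u - z)‖ := by ring_nf
    _ ≤ ‖z‖ + ‖u - z‖ := norm_add_le _ _
    _ ≤ ‖z‖ + R := by linarith

theorem VorLF.mono {Y Y' : Set ℂ} (h : VorLF Y) (hs : Y' ⊆ Y) : VorLF Y' := fun R => (h R).subset (inter_subset_inter_left _ hs)

/-- a nearest site exists -/
theorem vor_cover {Y : Set ℂ} (h : VorLF Y) (hne : Y.Nonempty) (z : ℂ) : ∃ v ∈ Y, z ∈ vorCell Y v := by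
  obtain ⟨u0, hu0⟩ := hne
  have hfin := h.finite_ball z ‖z - u0‖
  have hne' : (Y ∩ closedBall z ‖z - u0‖).Nonempty := ⟨u0, hu0, by rw [mem_closedBall, dist_eq_norm, norm_sub_rev]⟩
  obtain ⟨v, hv, hmin⟩ := hfin.exists_minimalFor (fun u => ‖z - u‖) _ hne'
  refine ⟨v, hv.1, fun u hu => ?_⟩
  by_cases hc : u ∈ closedBall z ‖z - u0‖
  · by_contra hlt
    exact hlt (hmin ⟨hu, hc⟩ (not_le.1 hlt).le)
  · rw [mem_closedBall, dist_eq_norm, norm_sub_rev, not_le] at hc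
    have := hv.2
    rw [mem_closedBall, dist_eq_norm, norm_sub_rev] at this
    linarith

/-- only finitely many cells meet a bounded set (no density needed) -/
theorem vor_finite_meet {Y : Set ℂ} (h : VorLF Y) {K : Set ℂ} (hK : Bornology.IsBounded K) : (vorMeet Y K).Finite := by
  rcases Y.eq_empty_or_nonempty with rfl | ⟨u0, hu0⟩
  · refine Set.Finite.subset finite_empty fun v hv => hv.1
  obtain ⟨R, hR⟩ := hK.subset_closedBall (0 : ℂ)
  refine (h (R + (R + ‖u0‖))).subset ?_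
  rintro v ⟨hv, z, hz, hzK⟩
  refine ⟨hv, ?_⟩
  have h1 := hR hzK
  rw [mem_closedBall, dist_zero_right] at h1 ⊢
  have h2 := hz u0 hu0
  calc ‖v‖ = ‖z - (z - v)‖ := by ring_nf
    _ ≤ ‖z‖ + ‖z - v‖ := norm_sub_le _ _
    _ ≤ ‖z‖ + ‖z - u0‖ := by linarith
    _ ≤ ‖z‖ + (‖z‖ + ‖u0‖) := by linarith [norm_sub_le z u0]
    _ ≤ R + (R + ‖u0‖) := by linarith

theorem vor_locallyFinite {Y : Set ℂ} (h : VorLF Y) (A : Set ℂ) (hA : A ⊆ Y) : LocallyFinite fun v : A => vorCell Y v := by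
  intro z
  refine ⟨ball z 1, ball_mem_nhds z one_pos, ?_⟩
  have hf := vor_finite_meet h (K := ball z 1) isBounded_ball
  refine Set.Finite.of_finite_image (f := Subtype.val) (hf.subset ?_) Subtype.val_injective.injOn
  rintro _ ⟨v, hv, rfl⟩
  exact ⟨hA v.2, hv⟩

/-- a union of cells is closed -/
theorem vor_isClosed_un {Y : Set ℂ} (h : VorLF Y) {A : Set ℂ} (hA : A ⊆ Y) : IsClosed (vorUn Y A) := by
  have : vorUn Y A = ⋃ v : A, vorCell Y v := by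
    ext z; simp [vorUn]
  rw [this]
  exact (vor_locallyFinite h A hA).isClosed_iUnion fun v => vor_isClosed_cell Y v

/-! ## 3. V2: density -/

theorem vor_site_near {Y K : Set ℂ} {ρ : ℝ} (hd : VorDense Y K ρ) {v z : ℂ} (hz : z ∈ vorCell Y v) (hK : z ∈ K) : ‖z - v‖ ≤ ρ := by
  obtain ⟨u, hu, h⟩ := hd z hK
  exact (hz u hu).trans h

theorem VorDense.mono {Y Y' K K' : Set ℂ} {ρ ρ' : ℝ} (h : VorDense Y K ρ) (hY : Y ⊆ Y') (hK : K' ⊆ K) (hρ : ρ ≤ ρ') : VorDense Y' K' ρ' := fun z hz => by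
  obtain ⟨u, hu, h1⟩ := h z (hK hz)
  exact ⟨u, hY hu, h1.trans hρ⟩

/-- density in a ball of radius `R > ρ` round `v` confines the cell of `v` to the ball of radius `ρ` -/
theorem vor_cell_subset_ball {Y : Set ℂ} {ρ R : ℝ} {v : ℂ} (hρ : 0 ≤ ρ) (hR : ρ < R) (hd : VorDense Y (closedBall v R) ρ) : vorCell Y v ⊆ closedBall v ρ := by
  intro z hz
  rw [mem_closedBall, dist_eq_norm]
  by_contra hlt
  rw [not_le] at hlt
  have hpos : 0 < ‖z - v‖ := lt_of_le_of_lt hρ hlt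
  by_cases hc : ‖z - v‖ ≤ R
  · exact absurd (vor_site_near hd hz (by rw [mem_closedBall, dist_eq_norm]; exact hc)) (not_le.2 hlt)
  · rw [not_le] at hc
    set t : ℝ := R / ‖z - v‖ with ht
    have ht0 : 0 ≤ t := div_nonneg (hρ.trans hR.le) hpos.le
    have ht1 : t ≤ 1 := (div_le_one hpos).2 hc.le
    have hw : (1 - t) • v + t • z ∈ vorCell Y v := vor_convex_cell Y v (vor_self_mem Y v) hz (by linarith) ht0 (by ring)
    have he : (1 - t) • v + t • z - v = t • (z - v) := by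
      simp only [Complex.real_smul]; push_cast; ring
    have hn : ‖(1 - t) • v + t • z - v‖ = R := by
      rw [he, norm_smul, Real.norm_of_nonneg ht0, ht, div_mul_cancel₀ _ hpos.ne']
    have := vor_site_near hd hw (by rw [mem_closedBall, dist_eq_norm, hn])
    rw [hn] at this
    linarith

theorem vor_cell_compact {Y : Set ℂ} {ρ R : ℝ} {v : ℂ} (hρ : 0 ≤ ρ) (hR : ρ < R) (hd : VorDense Y (closedBall v R) ρ) : IsCompact (vorCell Y v) :=
  (isCompact_closedBall v ρ).of_isClosed_subset (vor_isClosed_cell Y v) (vor_cell_subset_ball hρ hR hd)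

theorem vor_subset_nbd (K : Set ℂ) {ρ : ℝ} (hρ : 0 ≤ ρ) : K ⊆ vorNbd K ρ := fun z hz => ⟨z, hz, by rw [sub_self, norm_zero]; exact hρ⟩

theorem vor_meet_subset_nbd {Y K : Set ℂ} {ρ : ℝ} (hd : VorDense Y K ρ) : vorMeet Y K ⊆ Y ∩ vorNbd K ρ := by
  rintro v ⟨hv, z, hz, hzK⟩
  exact ⟨hv, z, hzK, by rw [norm_sub_rev]; exact vor_site_near hd hz hzK⟩

/-! ## 4. V3: LOC, TEX[Cardy:lemma:mesh] (i) -/

theorem vor_dense_transfer {Y Y' K : Set ℂ} {ρ : ℝ} (hd : VorDense Y K ρ) (hYY : Y ∩ vorNbd K ρ = Y' ∩ vorNbd K ρ) : VorDense Y' K ρ := fun z hz => by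
  obtain ⟨u, hu, h⟩ := hd z hz
  have : u ∈ Y' ∩ vorNbd K ρ := hYY ▸ ⟨hu, z, hz, by rw [norm_sub_rev]; exact h⟩
  exact ⟨u, this.1, h⟩

theorem vor_loc_aux {Y Y' K : Set ℂ} {ρ : ℝ} (hd : VorDense Y K ρ) (hYY : Y ∩ vorNbd K ρ = Y' ∩ vorNbd K ρ) {z v : ℂ} (hz : z ∈ K)
    (h : v ∈ Y ∧ z ∈ vorCell Y v) : v ∈ Y' ∧ z ∈ vorCell Y' v := by
  have h1 := vor_site_near hd h.2 hz
  have hv : v ∈ Y' ∩ vorNbd K ρ := hYY ▸ ⟨h.1, z, hz, by rw [norm_sub_rev]; exact h1⟩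
  refine ⟨hv.1, fun u hu => ?_⟩
  by_cases hc : ‖z - u‖ ≤ ρ
  · have : u ∈ Y ∩ vorNbd K ρ := hYY.symm ▸ ⟨hu, z, hz, by rw [norm_sub_rev]; exact hc⟩
    exact h.2 u this.1
  · linarith

/-- LOC: at the points of `K` the tessellation is a function of `Y ∩ K^{+ρ}` as soon as `Y` is `ρ`-dense on `K` -/
theorem vor_loc {Y Y' K : Set ℂ} {ρ : ℝ} (hd : VorDense Y K ρ) (hYY : Y ∩ vorNbd K ρ = Y' ∩ vorNbd K ρ) {z v : ℂ} (hz : z ∈ K) :
    (v ∈ Y ∧ z ∈ vorCell Y v) ↔ (v ∈ Y' ∧ z ∈ vorCell Y' v) :=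
  ⟨vor_loc_aux hd hYY hz, vor_loc_aux (vor_dense_transfer hd hYY) hYY.symm hz⟩

/-- LOC for unions of cells (colours): the black set inside `K` -/
theorem vor_loc_un {Y Y' K A A' : Set ℂ} {ρ : ℝ} (hd : VorDense Y K ρ) (hYY : Y ∩ vorNbd K ρ = Y' ∩ vorNbd K ρ) (hA : A ⊆ Y) (hA' : A' ⊆ Y')
    (hAA : A ∩ vorNbd K ρ = A' ∩ vorNbd K ρ) : vorUn Y A ∩ K = vorUn Y' A' ∩ K := by
  have key : ∀ {Y Y' A A' : Set ℂ}, VorDense Y K ρ → Y ∩ vorNbd K ρ = Y' ∩ vorNbd K ρ → A ⊆ Y → A ∩ vorNbd K ρ = A' ∩ vorNbd K ρ →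
      vorUn Y A ∩ K ⊆ vorUn Y' A' ∩ K := by
    rintro Y Y' A A' hd hYY hA hAA z ⟨⟨v, hv, hz⟩, hzK⟩
    have h1 := vor_site_near hd hz hzK
    have hv' : v ∈ A' ∩ vorNbd K ρ := hAA ▸ ⟨hv, z, hzK, by rw [norm_sub_rev]; exact h1⟩
    exact ⟨⟨v, hv'.1, (vor_loc_aux hd hYY hzK ⟨hA hv, hz⟩).2⟩, hzK⟩
  exact Subset.antisymm (key hd hYY hA hAA) (key (vor_dense_transfer hd hYY) hYY.symm hA' hAA.symm)

/-! ## 5. V7 (G4 of helper264): blocks -/

/-- the cells meeting a preconnected set form a connected block; consecutive cells meet INSIDE the set -/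
theorem vor_block_connected {Y S : Set ℂ} (h : VorLF Y) (hS : IsPreconnected S) {a b : ℂ} (ha : a ∈ vorMeet Y S) (hb : b ∈ vorMeet Y S) :
    Relation.ReflTransGen (VorAdjIn Y S) a b := by
  by_contra hcon
  set A : Set ℂ := {v | v ∈ Y ∧ Relation.ReflTransGen (VorAdjIn Y S) a v} with hA
  set B : Set ℂ := {v | v ∈ Y ∧ ¬ Relation.ReflTransGen (VorAdjIn Y S) a v} with hB
  have cA : IsClosed (vorUn Y A) := vor_isClosed_un h fun v hv => hv.1
  have cB : IsClosed (vorUn Y B) := vor_isClosed_un h fun v hv => hv.1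
  have hcov : S ⊆ vorUn Y A ∪ vorUn Y B := fun z _ => by
    obtain ⟨v, hv, hz⟩ := vor_cover h ⟨a, ha.1⟩ z
    by_cases hc : Relation.ReflTransGen (VorAdjIn Y S) a v
    · exact Or.inl ⟨v, ⟨hv, hc⟩, hz⟩
    · exact Or.inr ⟨v, ⟨hv, hc⟩, hz⟩
  obtain ⟨za, hza, hzaS⟩ := ha.2
  obtain ⟨zb, hzb, hzbS⟩ := hb.2
  obtain ⟨z, hzS, ⟨v, hv, hzv⟩, ⟨w, hw, hzw⟩⟩ := isPreconnected_closed_iff.1 hS _ _ cA cB hcov ⟨za, hzaS, a, ⟨ha.1, Relation.ReflTransGen.refl⟩, hza⟩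
    ⟨zb, hzbS, b, ⟨hb.1, hcon⟩, hzb⟩
  refine hw.2 (hv.2.tail ⟨hv.1, hw.1, ?_, z, ⟨hzv, hzw⟩, hzS⟩)
  rintro rfl
  exact hw.2 hv.2

/-- conversely a chain of cells meeting consecutively has a connected union -/
theorem vor_chain_connected {Y : Set ℂ} {A : Set ℂ} (hne : A.Nonempty)
    (hch : ∀ a ∈ A, ∀ b ∈ A, Relation.ReflTransGen (fun x y => x ∈ A ∧ y ∈ A ∧ (vorCell Y x ∩ vorCell Y y).Nonempty) a b) : IsConnected (vorUn Y A) := by
  obtain ⟨a, ha⟩ := hne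
  refine ⟨⟨a, a, ha, vor_self_mem Y a⟩, ?_⟩
  refine isPreconnected_of_forall a fun z hz => ?_
  obtain ⟨b, hb, hzb⟩ := hz
  have key : ∀ b, Relation.ReflTransGen (fun x y => x ∈ A ∧ y ∈ A ∧ (vorCell Y x ∩ vorCell Y y).Nonempty) a b → b ∈ A →
      ∃ t ⊆ vorUn Y A, a ∈ t ∧ vorCell Y b ⊆ t ∧ IsPreconnected t := by
    intro b hab
    induction hab with
    | refl => exact fun _ => ⟨vorCell Y a, fun z hz => ⟨a, ha, hz⟩, vor_self_mem Y a, Subset.rfl, (vor_convex_cell Y a).isPreconnected⟩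
    | tail _ hbc ih =>
      rename_i b c _
      intro hc
      obtain ⟨t, ht, hat, hbt, hpt⟩ := ih hbc.1
      obtain ⟨w, hwb, hwc⟩ := hbc.2.2
      refine ⟨t ∪ vorCell Y c, union_subset ht fun z hz => ⟨c, hc, hz⟩, Or.inl hat, subset_union_right, ?_⟩
      exact hpt.union w (hbt hwb) hwc (vor_convex_cell Y c).isPreconnected
  obtain ⟨t, ht, hat, hbt, hpt⟩ := key b (hch a ha b hb) hb
  exact ⟨t, ht, hat, hbt hzb, hpt⟩

/-! ## 6. the frozen sample.  WARNING: local finiteness is NOT free from the sample space: `ω.2 (k,j)` is an arbitrary pair of reals; it lies in `[0,1)²` only a.s. -/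

/-- the deterministic half: a sample all of whose marks lie in the unit square has a locally finite set of sites -/
theorem vor_lf_pv (ω : PVSample) (hω : ∀ k j, (ω.2 (k, j)).1.1 ∈ Ico (0 : ℝ) 1 ∧ (ω.2 (k, j)).1.2 ∈ Ico (0 : ℝ) 1) : VorLF (cfSites (pvConf ω)) := by
  intro R
  obtain ⟨N, hN⟩ := exists_nat_gt (R + 1)
  have hfin : (⋃ k ∈ (Icc (-(N : ℤ)) N ×ˢ Icc (-(N : ℤ)) N : Set (ℤ × ℤ)), (fun j => pvSite ω k j) '' {j | j < ω.1 k}).Finite :=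
    Set.Finite.biUnion ((finite_Icc _ _).prod (finite_Icc _ _)) fun k _ => (Set.finite_lt_nat _).image _
  refine hfin.subset ?_
  rintro _ ⟨⟨p, ⟨k, j, hj, rfl⟩, rfl⟩, hR⟩
  rw [mem_closedBall, dist_zero_right] at hR
  have h1 := (abs_le.1 ((Complex.abs_re_le_norm _).trans hR))
  have h2 := (abs_le.1 ((Complex.abs_im_le_norm _).trans hR))
  simp only [pvPt, pvSite] at h1 h2
  obtain ⟨⟨a1, a2⟩, ⟨b1, b2⟩⟩ := hω k j
  refine mem_biUnion (x := k) ⟨⟨?_, ?_⟩, ⟨?_, ?_⟩⟩ ⟨j, hj, rfl⟩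
  · have : (-(N : ℤ) : ℝ) ≤ (k.1 : ℝ) := by push_cast; linarith
    exact_mod_cast this
  · have : (k.1 : ℝ) ≤ ((N : ℤ) : ℝ) := by push_cast; linarith
    exact_mod_cast this
  · have : (-(N : ℤ) : ℝ) ≤ (k.2 : ℝ) := by push_cast; linarith
    exact_mod_cast this
  · have : (k.2 : ℝ) ≤ ((N : ℤ) : ℝ) := by push_cast; linarith
    exact_mod_cast this

/-! ## 7. OPEN LEAVES of the soft part (market: claim289; each <= 60 lines).  Consumers: Del/* (links G3), S1/S8 (similarity covariance) -/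

/-- the site is an interior point of its cell.
PLAN: `F := (Y ∩ closedBall v 1) \ {v}` is finite, hence closed, and misses `v`: `ball v ε ⊆ Fᶜ` (`Metric.isOpen_iff`).  `δ := min (ε/2) (1/2)`.
For `z ∈ ball v δ`, `u ∈ Y`: `u = v` trivial; `u ∈ F`: `‖z-u‖ ≥ ‖u-v‖ - ‖z-v‖ ≥ ε - δ ≥ δ`; `‖u-v‖ > 1`: `‖z-u‖ ≥ 1 - δ ≥ δ`. -/
theorem vor_ball_subset_cell {Y : Set ℂ} (h : VorLF Y) (v : ℂ) : ∃ δ > 0, ball v δ ⊆ vorCell Y v := by
  set F : Set ℂ := (Y ∩ closedBall v 1) \ {v} with hF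
  have hFfin : F.Finite := (h.finite_ball v 1).subset sdiff_subset
  have hFo : IsOpen Fᶜ := hFfin.isClosed.isOpen_compl
  have hvF : v ∈ Fᶜ := fun hv => hv.2 rfl
  obtain ⟨ε, hε, hball⟩ := Metric.isOpen_iff.1 hFo v hvF
  refine ⟨min (ε / 2) (1 / 2), lt_min (by linarith) (by norm_num), fun z hz u hu => ?_⟩
  rw [mem_ball, dist_eq_norm] at hz
  have h1 : ‖z - v‖ < ε / 2 := lt_of_lt_of_le hz (min_le_left _ _)
  have h2 : ‖z - v‖ < 1 / 2 := lt_of_lt_of_le hz (min_le_right _ _)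
  have htri : ‖u - v‖ ≤ ‖z - u‖ + ‖z - v‖ := by
    calc ‖u - v‖ = ‖(z - v) - (z - u)‖ := by ring_nf
      _ ≤ ‖z - v‖ + ‖z - u‖ := norm_sub_le _ _
      _ = ‖z - u‖ + ‖z - v‖ := add_comm _ _
  by_cases huv : u = v
  · rw [huv]
  by_cases hc : ‖u - v‖ ≤ 1
  · have huF : u ∈ F := ⟨⟨hu, by rw [mem_closedBall, dist_eq_norm]; exact hc⟩, huv⟩
    have : ε ≤ ‖u - v‖ := by
      by_contra hlt
      rw [not_le] at hlt
      exact hball (by rw [mem_ball, dist_eq_norm]; exact hlt) huF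
    linarith
  · rw [not_le] at hc
    linarith

/-- a point of two different cells is a frontier point of both.
PLAN: `z ∈ closure` is clear (closed).  `z ∉ interior`: the points `z + t (b - v)`, `t ↓ 0`, are strictly closer to `b` than to `v` (`vor_half`, strict: the linear form increases by `2 t ‖b-v‖² > 0` and there is equality at `z`). -/
theorem vor_mem_frontier {Y : Set ℂ} {v b z : ℂ} (hb : b ∈ Y) (hvb : v ≠ b) (hv : z ∈ vorCell Y v) (hzb : z ∈ vorCell Y b) (hvY : v ∈ Y) :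
    z ∈ frontier (vorCell Y v) := by
  rw [frontier, (vor_isClosed_cell Y v).closure_eq]
  refine ⟨hv, fun hint => ?_⟩
  rw [mem_interior_iff_mem_nhds, Metric.mem_nhds_iff] at hint
  obtain ⟨ε, hε, hball⟩ := hint
  have hne : 0 < ‖b - v‖ := norm_pos_iff.2 (sub_ne_zero.2 hvb.symm)
  set t : ℝ := ε / (2 * ‖b - v‖) with ht
  have ht0 : 0 < t := by positivity
  have hw : z + (t : ℂ) * (b - v) ∈ ball z ε := by
    rw [mem_ball, dist_eq_norm, add_sub_cancel_left, norm_mul, Complex.norm_real, Real.norm_of_nonneg ht0.le, ht]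
    have : ε / (2 * ‖b - v‖) * ‖b - v‖ = ε / 2 := by field_simp
    rw [this]; linarith
  have h1 := (vor_half _ v b).1 (hball hw b hb)
  have h2 := (vor_half z b v).1 (hzb v hvY)
  have h3 : 0 < (b.re - v.re) ^ 2 + (b.im - v.im) ^ 2 := by
    have : ‖b - v‖ ^ 2 = (b.re - v.re) ^ 2 + (b.im - v.im) ^ 2 := by
      rw [Complex.sq_norm, Complex.normSq_apply]; simp only [Complex.sub_re, Complex.sub_im]; ring
    rw [← this]; positivity
  simp only [Complex.add_re, Complex.add_im, Complex.mul_re, Complex.mul_im, Complex.ofReal_re, Complex.ofReal_im, zero_mul, sub_zero, add_zero,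
    Complex.sub_re, Complex.sub_im] at h1
  nlinarith [mul_pos ht0 h3]

/-- a frontier point of a cell lies in another cell.
PLAN: `B := Y \ {v}`; `vorUn Y B` is closed (`vor_isClosed_un`); `z ∈ frontier` is a limit of points outside `vorCell Y v`, which lie in `vorUn Y B` by `vor_cover`. -/
theorem vor_frontier_subset {Y : Set ℂ} (h : VorLF Y) {v z : ℂ} (hvY : v ∈ Y) (hz : z ∈ frontier (vorCell Y v)) :
    z ∈ vorCell Y v ∧ ∃ b ∈ Y, b ≠ v ∧ z ∈ vorCell Y b := by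
  have hzc : z ∈ vorCell Y v := (vor_isClosed_cell Y v).frontier_subset hz
  refine ⟨hzc, ?_⟩
  have hcl : IsClosed (vorUn Y (Y \ {v})) := vor_isClosed_un h sdiff_subset
  have hsub : (vorCell Y v)ᶜ ⊆ vorUn Y (Y \ {v}) := fun w hw => by
    obtain ⟨u, hu, hwu⟩ := vor_cover h ⟨v, hvY⟩ w
    refine ⟨u, ⟨hu, ?_⟩, hwu⟩
    rintro rfl
    exact hw hwu
  have hz2 : z ∈ closure (vorCell Y v)ᶜ := by
    rw [frontier_eq_closure_inter_closure] at hz
    exact hz.2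
  obtain ⟨b, hb, hzb⟩ := (closure_minimal hsub hcl) hz2
  exact ⟨b, hb.1, hb.2, hzb⟩

/-- the frontier of a bounded cell is connected.
PLAN: Mathlib `exists_homeomorph_image_interior_closure_frontier_eq_unitBall` (convex, nonempty interior by `vor_ball_subset_cell`, bounded) gives a homeomorphism of `ℂ`
carrying the frontier onto `sphere 0 1`; `isConnected_sphere` with `Complex.rank_real_complex` (`1 < 2`); pull back by the inverse homeomorphism (`IsConnected.image`). -/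
theorem vor_frontier_connected {Y : Set ℂ} (h : VorLF Y) {v : ℂ} (hb : Bornology.IsBounded (vorCell Y v)) : IsConnected (frontier (vorCell Y v)) := by
  obtain ⟨δ, hδ, hball⟩ := vor_ball_subset_cell h v
  have hint : (interior (vorCell Y v)).Nonempty := ⟨v, mem_interior.2 ⟨ball v δ, hball, isOpen_ball, mem_ball_self hδ⟩⟩
  obtain ⟨φ, _, _, h3⟩ := exists_homeomorph_image_interior_closure_frontier_eq_unitBall (vor_convex_cell Y v) hint hb
  have hs : IsConnected (sphere (0 : ℂ) 1) := isConnected_sphere (by rw [Complex.rank_real_complex]; norm_num) 0 zero_le_one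
  have : frontier (vorCell Y v) = φ.symm '' sphere (0 : ℂ) 1 := by
    rw [← h3, ← image_comp]; simp
  rw [this]
  exact hs.image _ φ.symm.continuous.continuousOn

/-- similarity covariance.  PLAN: `‖(a z + b) - (a v + b)‖ = ‖a‖ ‖z - v‖`; surjectivity of `z ↦ a z + b`. -/
theorem vor_cell_similarity (Y : Set ℂ) (v a b : ℂ) (ha : a ≠ 0) :
    vorCell ((fun z => a * z + b) '' Y) (a * v + b) = (fun z => a * z + b) '' vorCell Y v := by
  have hna : 0 < ‖a‖ := norm_pos_iff.2 ha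
  have key : ∀ z w : ℂ, ‖(a * z + b) - (a * w + b)‖ = ‖a‖ * ‖z - w‖ := fun z w => by
    rw [← norm_mul]; congr 1; ring
  ext w
  constructor
  · intro hw
    refine ⟨(w - b) / a, fun u hu => ?_, by field_simp; ring⟩
    have h1 := hw (a * u + b) ⟨u, hu, rfl⟩
    have e : w = a * ((w - b) / a) + b := by field_simp; ring
    rw [e, key, key] at h1
    exact le_of_mul_le_mul_left h1 hna
  · rintro ⟨z, hz, rfl⟩ _ ⟨u, hu, rfl⟩
    simp only
    rw [key, key]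
    exact mul_le_mul_of_nonneg_left (hz u hu) hna.le

/-- reflection covariance.  PLAN: `‖conj z - conj v‖ = ‖z - v‖`. -/
theorem vor_cell_conj (Y : Set ℂ) (v : ℂ) :
    vorCell ((starRingEnd ℂ) '' Y) ((starRingEnd ℂ) v) = (starRingEnd ℂ) '' vorCell Y v := by
  have key : ∀ z w : ℂ, ‖(starRingEnd ℂ) z - (starRingEnd ℂ) w‖ = ‖z - w‖ := fun z w => by
    rw [← map_sub, Complex.norm_conj]
  ext w
  constructor
  · intro hw
    refine ⟨(starRingEnd ℂ) w, fun u hu => ?_, Complex.conj_conj w⟩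
    have h1 := hw _ ⟨u, hu, rfl⟩
    rw [← Complex.conj_conj w, key, key] at h1
    exact h1
  · rintro ⟨z, hz, rfl⟩ _ ⟨u, hu, rfl⟩
    rw [key, key]
    exact hz u hu

/-- a cell that meets `K` and `ρ`-density on the `3ρ`-neighbourhood of `K`: the cell is inside the `2ρ`-neighbourhood of `K` and has diameter `≤ 2ρ`.
PLAN: `z ∈ K ∩ cell v` gives `‖z-v‖ ≤ ρ`; `closedBall v (2ρ) ⊆ vorNbd K (3ρ)`; `vor_cell_subset_ball` with `R = 2ρ`. -/
theorem vor_cell_subset_nbd {Y K : Set ℂ} {ρ : ℝ} (hρ : 0 < ρ) (hd : VorDense Y (vorNbd K (3 * ρ)) ρ) {v : ℂ} (hv : v ∈ vorMeet Y K) :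
    vorCell Y v ⊆ closedBall v ρ ∧ vorCell Y v ⊆ vorNbd K (2 * ρ) := by
  obtain ⟨hvY, z, hz, hzK⟩ := hv
  have hd0 : VorDense Y K ρ := hd.mono Subset.rfl (vor_subset_nbd K (by linarith)) le_rfl
  have h1 : ‖z - v‖ ≤ ρ := vor_site_near hd0 hz hzK
  have hsub : closedBall v (2 * ρ) ⊆ vorNbd K (3 * ρ) := fun w hw => by
    rw [mem_closedBall, dist_eq_norm] at hw
    refine ⟨z, hzK, ?_⟩
    calc ‖w - z‖ = ‖(w - v) - (z - v)‖ := by ring_nf
      _ ≤ ‖w - v‖ + ‖z - v‖ := norm_sub_le _ _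
      _ ≤ 3 * ρ := by linarith
  have h2 : vorCell Y v ⊆ closedBall v ρ := vor_cell_subset_ball hρ.le (by linarith) (hd.mono Subset.rfl hsub le_rfl)
  refine ⟨h2, fun w hw => ⟨z, hzK, ?_⟩⟩
  have h3 := h2 hw
  rw [mem_closedBall, dist_eq_norm] at h3
  calc ‖w - z‖ = ‖(w - v) - (z - v)‖ := by ring_nf
    _ ≤ ‖w - v‖ + ‖z - v‖ := norm_sub_le _ _
    _ ≤ 2 * ρ := by linarith

/-! ## 8. covariance under similarities `z ↦ a z + b` and under the reflection `conj`      (helper135) -/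

/-- the similarity `z ↦ a z + b` -/
def vorSim (a b : ℂ) (z : ℂ) : ℂ := a * z + b

theorem vorSim_apply (a b z : ℂ) : vorSim a b z = a * z + b := rfl

theorem vorSim_norm (a b z w : ℂ) : ‖vorSim a b z - vorSim a b w‖ = ‖a‖ * ‖z - w‖ := by
  rw [← norm_mul]; congr 1; simp only [vorSim]; ring

theorem vorSim_injective {a : ℂ} (ha : a ≠ 0) (b : ℂ) : Function.Injective (vorSim a b) := fun z w h => by
  have h1 : a * z = a * w := add_right_cancel h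
  exact mul_left_cancel₀ ha h1

theorem vorSim_inv_left {a : ℂ} (ha : a ≠ 0) (b z : ℂ) : vorSim a⁻¹ (-(a⁻¹ * b)) (vorSim a b z) = z := by
  simp only [vorSim]; field_simp; ring

theorem vorSim_inv_right {a : ℂ} (ha : a ≠ 0) (b z : ℂ) : vorSim a b (vorSim a⁻¹ (-(a⁻¹ * b)) z) = z := by
  simp only [vorSim]; field_simp; ring

theorem vorSim_surjective {a : ℂ} (ha : a ≠ 0) (b : ℂ) : Function.Surjective (vorSim a b) := fun z => ⟨_, vorSim_inv_right ha b z⟩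

theorem vorSim_continuous (a b : ℂ) : Continuous (vorSim a b) := by unfold vorSim; fun_prop

/-- the similarity as a homeomorphism -/
noncomputable def vorSimH (a b : ℂ) (ha : a ≠ 0) : ℂ ≃ₜ ℂ where
  toFun := vorSim a b
  invFun := vorSim a⁻¹ (-(a⁻¹ * b))
  left_inv := vorSim_inv_left ha b
  right_inv := vorSim_inv_right ha b
  continuous_toFun := vorSim_continuous a b
  continuous_invFun := vorSim_continuous _ _

theorem vorSimH_apply (a b : ℂ) (ha : a ≠ 0) (z : ℂ) : vorSimH a b ha z = vorSim a b z := rfl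

theorem vor_sim_mem_image {a : ℂ} (ha : a ≠ 0) (b : ℂ) (A : Set ℂ) (z : ℂ) : vorSim a b z ∈ vorSim a b '' A ↔ z ∈ A :=
  (vorSim_injective ha b).mem_set_image

theorem vor_sim_cell (Y : Set ℂ) (v : ℂ) {a : ℂ} (ha : a ≠ 0) (b : ℂ) : vorCell (vorSim a b '' Y) (vorSim a b v) = vorSim a b '' vorCell Y v :=
  vor_cell_similarity Y v a b ha

theorem vor_sim_mem_cell (Y : Set ℂ) (v z : ℂ) {a : ℂ} (ha : a ≠ 0) (b : ℂ) : vorSim a b z ∈ vorCell (vorSim a b '' Y) (vorSim a b v) ↔ z ∈ vorCell Y v := by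
  rw [vor_sim_cell Y v ha b, vor_sim_mem_image ha]

theorem vor_sim_un (Y A : Set ℂ) {a : ℂ} (ha : a ≠ 0) (b : ℂ) : vorUn (vorSim a b '' Y) (vorSim a b '' A) = vorSim a b '' vorUn Y A := by
  ext w
  constructor
  · rintro ⟨_, ⟨v, hv, rfl⟩, hw⟩
    rw [vor_sim_cell Y v ha b] at hw
    obtain ⟨z, hz, rfl⟩ := hw
    exact ⟨z, ⟨v, hv, hz⟩, rfl⟩
  · rintro ⟨z, ⟨v, hv, hz⟩, rfl⟩
    exact ⟨_, ⟨v, hv, rfl⟩, (vor_sim_mem_cell Y v z ha b).2 hz⟩

theorem vor_sim_nbd (K : Set ℂ) (ρ : ℝ) {a : ℂ} (ha : a ≠ 0) (b : ℂ) : vorNbd (vorSim a b '' K) (‖a‖ * ρ) = vorSim a b '' vorNbd K ρ := by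
  have hpos : 0 < ‖a‖ := norm_pos_iff.2 ha
  ext w
  constructor
  · rintro ⟨_, ⟨z, hz, rfl⟩, hw⟩
    obtain ⟨w, rfl⟩ := vorSim_surjective ha b w
    rw [vorSim_norm] at hw
    exact ⟨w, ⟨z, hz, le_of_mul_le_mul_left hw hpos⟩, rfl⟩
  · rintro ⟨w, ⟨z, hz, hw⟩, rfl⟩
    exact ⟨_, ⟨z, hz, rfl⟩, by rw [vorSim_norm]; exact mul_le_mul_of_nonneg_left hw hpos.le⟩

theorem vor_sim_dense {Y K : Set ℂ} {ρ : ℝ} (h : VorDense Y K ρ) (a b : ℂ) : VorDense (vorSim a b '' Y) (vorSim a b '' K) (‖a‖ * ρ) := by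
  rintro _ ⟨z, hz, rfl⟩
  obtain ⟨u, hu, h1⟩ := h z hz
  exact ⟨_, ⟨u, hu, rfl⟩, by rw [vorSim_norm]; exact mul_le_mul_of_nonneg_left h1 (norm_nonneg a)⟩

theorem vor_sim_lf {Y : Set ℂ} (h : VorLF Y) {a : ℂ} (ha : a ≠ 0) (b : ℂ) : VorLF (vorSim a b '' Y) := by
  intro R
  have hpos : 0 < ‖a‖ := norm_pos_iff.2 ha
  refine ((h.finite_ball (vorSim a⁻¹ (-(a⁻¹ * b)) 0) (R / ‖a‖)).image (vorSim a b)).subset ?_
  rintro _ ⟨⟨u, hu, rfl⟩, hR⟩
  refine ⟨u, ⟨hu, ?_⟩, rfl⟩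
  rw [mem_closedBall, dist_eq_norm] at hR ⊢
  rw [le_div_iff₀ hpos, mul_comm, ← vorSim_norm a b, vorSim_inv_right ha]
  exact hR

theorem vor_sim_det (a b x y z : ℂ) : vorDet (vorSim a b x) (vorSim a b y) (vorSim a b z) = ‖a‖ ^ 2 * vorDet x y z := by
  rw [Complex.sq_norm, Complex.normSq_apply]
  simp only [vorDet, vorSim, Complex.add_re, Complex.add_im, Complex.mul_re, Complex.mul_im]
  ring

theorem vor_sim_gp {Y : Set ℂ} (h : VorGP Y) {a : ℂ} (ha : a ≠ 0) (b : ℂ) : VorGP (vorSim a b '' Y) := by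
  have hpos : 0 < ‖a‖ := norm_pos_iff.2 ha
  have hne : ∀ {x y : ℂ}, vorSim a b x ≠ vorSim a b y → x ≠ y := fun h e => h (e ▸ rfl)
  constructor
  · rintro _ ⟨x, hx, rfl⟩ _ ⟨y, hy, rfl⟩ _ ⟨z, hz, rfl⟩ h1 h2 h3
    rw [vor_sim_det]
    exact mul_ne_zero (pow_ne_zero 2 hpos.ne') (h.col x hx y hy z hz (hne h1) (hne h2) (hne h3))
  · rintro _ ⟨x, hx, rfl⟩ _ ⟨y, hy, rfl⟩ _ ⟨z, hz, rfl⟩ _ ⟨t, ht, rfl⟩ h1 h2 h3 h4 h5 h6 w ⟨e1, e2, e3⟩
    obtain ⟨w, rfl⟩ := vorSim_surjective ha b w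
    rw [vorSim_norm, vorSim_norm] at e1 e2 e3
    exact h.cir x hx y hy z hz t ht (hne h1) (hne h2) (hne h3) (hne h4) (hne h5) (hne h6) w
      ⟨mul_left_cancel₀ hpos.ne' e1, mul_left_cancel₀ hpos.ne' e2, mul_left_cancel₀ hpos.ne' e3⟩

theorem vor_sim_meet (Y S : Set ℂ) {a : ℂ} (ha : a ≠ 0) (b : ℂ) : vorMeet (vorSim a b '' Y) (vorSim a b '' S) = vorSim a b '' vorMeet Y S := by
  ext w
  constructor
  · rintro ⟨⟨v, hv, rfl⟩, _, hz, ⟨z, hzS, rfl⟩⟩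
    exact ⟨v, ⟨hv, z, (vor_sim_mem_cell Y v z ha b).1 hz, hzS⟩, rfl⟩
  · rintro ⟨v, ⟨hv, z, hz, hzS⟩, rfl⟩
    exact ⟨⟨v, hv, rfl⟩, _, (vor_sim_mem_cell Y v z ha b).2 hz, ⟨z, hzS, rfl⟩⟩

theorem vor_sim_adj (Y S : Set ℂ) (x y : ℂ) {a : ℂ} (ha : a ≠ 0) (b : ℂ) :
    VorAdjIn (vorSim a b '' Y) (vorSim a b '' S) (vorSim a b x) (vorSim a b y) ↔ VorAdjIn Y S x y := by
  constructor
  · rintro ⟨h1, h2, h3, _, ⟨hz1, hz2⟩, ⟨z, hzS, rfl⟩⟩
    exact ⟨(vor_sim_mem_image ha b Y x).1 h1, (vor_sim_mem_image ha b Y y).1 h2, fun e => h3 (e ▸ rfl), z,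
      ⟨(vor_sim_mem_cell Y x z ha b).1 hz1, (vor_sim_mem_cell Y y z ha b).1 hz2⟩, hzS⟩
  · rintro ⟨h1, h2, h3, z, ⟨hz1, hz2⟩, hzS⟩
    exact ⟨⟨x, h1, rfl⟩, ⟨y, h2, rfl⟩, fun e => h3 (vorSim_injective ha b e), _,
      ⟨(vor_sim_mem_cell Y x z ha b).2 hz1, (vor_sim_mem_cell Y y z ha b).2 hz2⟩, ⟨z, hzS, rfl⟩⟩

/-! ### reflection -/

/-- complex conjugation as a plain map -/
def vorCj (z : ℂ) : ℂ := (starRingEnd ℂ) z

theorem vorCj_apply (z : ℂ) : vorCj z = (starRingEnd ℂ) z := rfl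

theorem vorCj_cj (z : ℂ) : vorCj (vorCj z) = z := Complex.conj_conj z

theorem vorCj_norm (z w : ℂ) : ‖vorCj z - vorCj w‖ = ‖z - w‖ := by
  unfold vorCj; rw [← map_sub, Complex.norm_conj]

theorem vorCj_injective : Function.Injective vorCj := fun z w h => by
  rw [← vorCj_cj z, h, vorCj_cj]

theorem vorCj_surjective : Function.Surjective vorCj := fun z => ⟨vorCj z, vorCj_cj z⟩

theorem vorCj_continuous : Continuous vorCj := Complex.continuous_conj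

theorem vor_cj_mem_image (A : Set ℂ) (z : ℂ) : vorCj z ∈ vorCj '' A ↔ z ∈ A := vorCj_injective.mem_set_image

theorem vor_cj_cell (Y : Set ℂ) (v : ℂ) : vorCell (vorCj '' Y) (vorCj v) = vorCj '' vorCell Y v := vor_cell_conj Y v

theorem vor_cj_mem_cell (Y : Set ℂ) (v z : ℂ) : vorCj z ∈ vorCell (vorCj '' Y) (vorCj v) ↔ z ∈ vorCell Y v := by
  rw [vor_cj_cell Y v, vor_cj_mem_image]

theorem vor_cj_un (Y A : Set ℂ) : vorUn (vorCj '' Y) (vorCj '' A) = vorCj '' vorUn Y A := by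
  ext w
  constructor
  · rintro ⟨_, ⟨v, hv, rfl⟩, hw⟩
    rw [vor_cj_cell Y v] at hw
    obtain ⟨z, hz, rfl⟩ := hw
    exact ⟨z, ⟨v, hv, hz⟩, rfl⟩
  · rintro ⟨z, ⟨v, hv, hz⟩, rfl⟩
    exact ⟨_, ⟨v, hv, rfl⟩, (vor_cj_mem_cell Y v z).2 hz⟩

theorem vor_cj_nbd (K : Set ℂ) (ρ : ℝ) : vorNbd (vorCj '' K) ρ = vorCj '' vorNbd K ρ := by
  ext w
  constructor
  · rintro ⟨_, ⟨z, hz, rfl⟩, hw⟩
    obtain ⟨w, rfl⟩ := vorCj_surjective w
    rw [vorCj_norm] at hw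
    exact ⟨w, ⟨z, hz, hw⟩, rfl⟩
  · rintro ⟨w, ⟨z, hz, hw⟩, rfl⟩
    exact ⟨_, ⟨z, hz, rfl⟩, by rw [vorCj_norm]; exact hw⟩

theorem vor_cj_dense {Y K : Set ℂ} {ρ : ℝ} (h : VorDense Y K ρ) : VorDense (vorCj '' Y) (vorCj '' K) ρ := by
  rintro _ ⟨z, hz, rfl⟩
  obtain ⟨u, hu, h1⟩ := h z hz
  exact ⟨_, ⟨u, hu, rfl⟩, by rw [vorCj_norm]; exact h1⟩

theorem vor_cj_lf {Y : Set ℂ} (h : VorLF Y) : VorLF (vorCj '' Y) := by
  intro R
  refine ((h R).image vorCj).subset ?_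
  rintro _ ⟨⟨u, hu, rfl⟩, hR⟩
  refine ⟨u, ⟨hu, ?_⟩, rfl⟩
  rw [mem_closedBall, dist_zero_right] at hR ⊢
  rwa [vorCj, Complex.norm_conj] at hR

/-- the reflection reverses the orientation -/
theorem vor_cj_det (x y z : ℂ) : vorDet (vorCj x) (vorCj y) (vorCj z) = - vorDet x y z := by
  simp only [vorDet, vorCj, Complex.conj_re, Complex.conj_im]
  ring

theorem vor_cj_gp {Y : Set ℂ} (h : VorGP Y) : VorGP (vorCj '' Y) := by
  have hne : ∀ {x y : ℂ}, vorCj x ≠ vorCj y → x ≠ y := fun h e => h (e ▸ rfl)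
  constructor
  · rintro _ ⟨x, hx, rfl⟩ _ ⟨y, hy, rfl⟩ _ ⟨z, hz, rfl⟩ h1 h2 h3
    rw [vor_cj_det]
    exact neg_ne_zero.2 (h.col x hx y hy z hz (hne h1) (hne h2) (hne h3))
  · rintro _ ⟨x, hx, rfl⟩ _ ⟨y, hy, rfl⟩ _ ⟨z, hz, rfl⟩ _ ⟨t, ht, rfl⟩ h1 h2 h3 h4 h5 h6 w ⟨e1, e2, e3⟩
    obtain ⟨w, rfl⟩ := vorCj_surjective w
    rw [vorCj_norm, vorCj_norm] at e1 e2 e3
    exact h.cir x hx y hy z hz t ht (hne h1) (hne h2) (hne h3) (hne h4) (hne h5) (hne h6) w ⟨e1, e2, e3⟩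

theorem vor_cj_meet (Y S : Set ℂ) : vorMeet (vorCj '' Y) (vorCj '' S) = vorCj '' vorMeet Y S := by
  ext w
  constructor
  · rintro ⟨⟨v, hv, rfl⟩, _, hz, ⟨z, hzS, rfl⟩⟩
    exact ⟨v, ⟨hv, z, (vor_cj_mem_cell Y v z).1 hz, hzS⟩, rfl⟩
  · rintro ⟨v, ⟨hv, z, hz, hzS⟩, rfl⟩
    exact ⟨⟨v, hv, rfl⟩, _, (vor_cj_mem_cell Y v z).2 hz, ⟨z, hzS, rfl⟩⟩

theorem vor_cj_adj (Y S : Set ℂ) (x y : ℂ) : VorAdjIn (vorCj '' Y) (vorCj '' S) (vorCj x) (vorCj y) ↔ VorAdjIn Y S x y := by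
  constructor
  · rintro ⟨h1, h2, h3, _, ⟨hz1, hz2⟩, ⟨z, hzS, rfl⟩⟩
    exact ⟨(vor_cj_mem_image Y x).1 h1, (vor_cj_mem_image Y y).1 h2, fun e => h3 (e ▸ rfl), z,
      ⟨(vor_cj_mem_cell Y x z).1 hz1, (vor_cj_mem_cell Y y z).1 hz2⟩, hzS⟩
  · rintro ⟨h1, h2, h3, z, ⟨hz1, hz2⟩, hzS⟩
    exact ⟨⟨x, h1, rfl⟩, ⟨y, h2, rfl⟩, fun e => h3 (vorCj_injective e), _,
      ⟨(vor_cj_mem_cell Y x z).2 hz1, (vor_cj_mem_cell Y y z).2 hz2⟩, ⟨z, hzS, rfl⟩⟩

/-! ### coloured configurations: the image of `η` under a map of the plane (colours kept), and the colour flip -/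

/-- a map of the plane acting on coloured points -/
def cfMapPt (g : ℂ → ℂ) (p : PvPt) : PvPt := (g p.1, p.2)

theorem cfSites_image (g : ℂ → ℂ) (η : Conf PvPt) : cfSites (Conf.image (cfMapPt g) η) = g '' cfSites η := by
  ext z
  simp only [cfSites, Conf.image, cfMapPt, mem_image]
  constructor
  · rintro ⟨_, ⟨p, hp, rfl⟩, rfl⟩
    exact ⟨p.1, ⟨p, hp, rfl⟩, rfl⟩
  · rintro ⟨_, ⟨p, hp, rfl⟩, rfl⟩
    exact ⟨_, ⟨p, hp, rfl⟩, rfl⟩

theorem cf_col_image (g : ℂ → ℂ) (η : Conf PvPt) (c : Bool) :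
    {v | (v, c) ∈ (Conf.image (cfMapPt g) η).pts} = g '' {v | (v, c) ∈ η.pts} := by
  ext z
  simp only [Conf.image, cfMapPt, mem_image, mem_ofPred_eq]
  constructor
  · rintro ⟨⟨v, c'⟩, hp, e⟩
    simp only [Prod.mk.injEq] at e
    obtain ⟨rfl, rfl⟩ := e
    exact ⟨v, hp, rfl⟩
  · rintro ⟨v, hv, rfl⟩
    exact ⟨(v, c), hv, rfl⟩

/-- the black set is covariant under similarities -/
theorem cfBlack_sim (η : Conf PvPt) {a : ℂ} (ha : a ≠ 0) (b : ℂ) : cfBlack (Conf.image (cfMapPt (vorSim a b)) η) = vorSim a b '' cfBlack η := by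
  rw [cfBlack_eq_vor, cfBlack_eq_vor, cfSites_image, cf_col_image, vor_sim_un _ _ ha b]

/-- the black set is covariant under the reflection -/
theorem cfBlack_cj (η : Conf PvPt) : cfBlack (Conf.image (cfMapPt vorCj) η) = vorCj '' cfBlack η := by
  rw [cfBlack_eq_vor, cfBlack_eq_vor, cfSites_image, cf_col_image, vor_cj_un]

theorem cfCell_sim (η : Conf PvPt) (v : ℂ) {a : ℂ} (ha : a ≠ 0) (b : ℂ) :
    cfCell (Conf.image (cfMapPt (vorSim a b)) η) (vorSim a b v) = vorSim a b '' cfCell η v := by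
  rw [cfCell_eq_vor, cfCell_eq_vor, cfSites_image, vor_sim_cell _ _ ha b]

theorem cfCell_cj (η : Conf PvPt) (v : ℂ) : cfCell (Conf.image (cfMapPt vorCj) η) (vorCj v) = vorCj '' cfCell η v := by
  rw [cfCell_eq_vor, cfCell_eq_vor, cfSites_image, vor_cj_cell]

theorem measurable_cfMapPt {g : ℂ → ℂ} (hg : Measurable g) : Measurable (cfMapPt g) :=
  (hg.comp measurable_fst).prodMk measurable_snd

end Claimed.Agent.R289
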