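import Claimed.Agent.R289.Vor.Basic
import Claimed.Agent.R289.PppPv

/-!
# Row 289 (S0537), box VOR, file Vor/Mesh : THE POISSON MESH ESTIMATES      (owner helper100; head of the box: helper219; prefix `vorm`, `vorm_`)

TEX[Cardy:lemma:mesh] (i), (ii) for cells (02-probability.tex l.107-160).      Inputs: void probabilities `pv_isPpp` (helper267), deterministic LOC `vor_loc`, `vor_loc_un`, `vor_cell_subset_ball` (helper253).
* `vormSq s k`   the half open square of side `s` and index `k`;   `vormIx s z`  the index of the square of `z`;   `vormBx N`  the indices `[-N, N]^2`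
* `vormEv s I`   **THE GRID EVENT**: every square of side `s` with index in the finite set `I` contains a site.   Measurable (`vorm_ev_meas`), increasing (`vorm_ev_mono`), local (`vorm_ev_restr`)
* `vorm_void`    `P_ε(no site in the square) = exp(-(s/ε)^2)`;      `vorm_ev_compl_le`   `P_ε(vormEv^c) ≤ #I exp(-(s/ε)^2)`;      `vorm_ev_tendsto`   `→ 0` as `ε ↓ 0`
* `vorm_dense`   on the grid event the sites are `2 s`-dense on every set covered by the squares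
* `vorm_ball`    the ball version: `vormEv s (vormBx N)`, `R ≤ N s`: dense on `closedBall 0 R`
* **`vorm_mesh_i`**  = (i):  for `K` bounded and `ρ > 0` a measurable event `G` (the same for all `ε`), local in the collar, `P_ε(G^c) → 0`, on which: sites `ρ`-dense on `K^{+2ρ}`, every cell which meets `K` lies in the ball of radius `ρ` round its site,
                     and the cells / the black set inside `K` do not change when the configuration is changed off the collar `K^{+ρ}`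
* **`vorm_tail`**    = (ii): `P_ε(some cell which meets closedBall 0 r has its site at distance > R from the meeting point) ≤ (2 ⌈2 r / R⌉ + 1)^2 exp(-(R/(2ε))^2)`
* versions for the frozen law: `vorm_law_compl_le`, `vorm_law_dense` (outer measure: no measurability of the density event is needed).
* **`vorm_decouple`** (any Poisson process): events which on `G_i` are functions of the restriction to disjoint `O_i` are independent up to `2 (P(G₁ᶜ) + P(G₂ᶜ))`;   `vorm_indep_disj`: restrictions to disjoint sets are independent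
* `VormRd K A`  the event `A` reads `cfBlack η ∩ K` only;   **`vorm_indep_err`**, **`vorm_indep_tendsto`**: percolation events in regions with disjoint collars are asymptotically independent.
-/

set_option autoImplicit false

namespace Claimed.Agent.R289

open Set Metric MeasureTheory Filter Topology Claims.C0465
open scoped ENNReal NNReal

/-! ## 0. definitions -/

/-- the half open square of side `s` with index `k` -/
def vormSq (s : ℝ) (k : ℤ × ℤ) : Set ℂ := {z | z.re ∈ Ico ((k.1 : ℝ) * s) (((k.1 : ℝ) + 1) * s) ∧ z.im ∈ Ico ((k.2 : ℝ) * s) (((k.2 : ℝ) + 1) * s)}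

/-- the index of the square which contains `z` -/
noncomputable def vormIx (s : ℝ) (z : ℂ) : ℤ × ℤ := (⌊z.re / s⌋, ⌊z.im / s⌋)

/-- the indices `[-N, N]^2` -/
noncomputable def vormBx (N : ℕ) : Finset (ℤ × ℤ) := Finset.Icc (-(N : ℤ)) N ×ˢ Finset.Icc (-(N : ℤ)) N

/-- **the grid event**: every square with index in `I` contains a site -/
def vormEv (s : ℝ) (I : Finset (ℤ × ℤ)) : Set (Conf PvPt) := {η | ∀ k ∈ I, (cfSites η ∩ vormSq s k).Nonempty}

theorem vorm_eqns_cite : True := by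
  have := @vormSq.eq_1
  have := @vormIx.eq_1
  have := @vormBx.eq_1
  have := @vormEv.eq_1
  trivial

/-! ## 1. the squares -/

theorem vorm_sq_eq (s : ℝ) (k : ℤ × ℤ) : vormSq s k = Complex.measurableEquivRealProd ⁻¹'
    (Ico ((k.1 : ℝ) * s) (((k.1 : ℝ) + 1) * s) ×ˢ Ico ((k.2 : ℝ) * s) (((k.2 : ℝ) + 1) * s)) := by
  ext z
  simp [vormSq, Complex.measurableEquivRealProd_apply]

theorem vorm_sq_meas (s : ℝ) (k : ℤ × ℤ) : MeasurableSet (vormSq s k) := by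
  rw [vorm_sq_eq]
  exact Complex.measurableEquivRealProd.measurable (measurableSet_Ico.prod measurableSet_Ico)

theorem vorm_sq_volume (s : ℝ) (k : ℤ × ℤ) : volume (vormSq s k) = ENNReal.ofReal s * ENNReal.ofReal s := by
  rw [vorm_sq_eq, Complex.volume_preserving_equiv_real_prod.measure_preimage (measurableSet_Ico.prod measurableSet_Ico).nullMeasurableSet,
    Measure.volume_eq_prod, Measure.prod_prod, Real.volume_Ico, Real.volume_Ico]
  congr 2 <;> ring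

theorem vorm_mem_sq {s : ℝ} (hs : 0 < s) (z : ℂ) : z ∈ vormSq s (vormIx s z) := by
  have h1 := Int.floor_le (z.re / s)
  have h2 := Int.lt_floor_add_one (z.re / s)
  have h3 := Int.floor_le (z.im / s)
  have h4 := Int.lt_floor_add_one (z.im / s)
  rw [le_div_iff₀ hs] at h1 h3
  rw [div_lt_iff₀ hs] at h2 h4
  exact ⟨⟨h1, h2⟩, ⟨h3, h4⟩⟩

/-- two points of one square are closer than twice the side -/
theorem vorm_sq_dist {s : ℝ} {k : ℤ × ℤ} {z u : ℂ} (hz : z ∈ vormSq s k) (hu : u ∈ vormSq s k) : ‖z - u‖ ≤ 2 * s := by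
  obtain ⟨⟨a1, a2⟩, ⟨a3, a4⟩⟩ := hz
  obtain ⟨⟨b1, b2⟩, ⟨b3, b4⟩⟩ := hu
  have h1 : |(z - u).re| ≤ s := by
    rw [Complex.sub_re, abs_le]; constructor <;> nlinarith
  have h2 : |(z - u).im| ≤ s := by
    rw [Complex.sub_im, abs_le]; constructor <;> nlinarith
  calc ‖z - u‖ ≤ |(z - u).re| + |(z - u).im| := Complex.norm_le_abs_re_add_abs_im _
    _ ≤ 2 * s := by linarith

theorem vorm_mem_bx {N : ℕ} {k : ℤ × ℤ} : k ∈ vormBx N ↔ (-(N : ℤ) ≤ k.1 ∧ k.1 ≤ N) ∧ -(N : ℤ) ≤ k.2 ∧ k.2 ≤ N := by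
  simp only [vormBx, Finset.mem_product, Finset.mem_Icc]

theorem vorm_bx_card (N : ℕ) : (vormBx N).card = (2 * N + 1) ^ 2 := by
  unfold vormBx
  rw [Finset.card_product, Int.card_Icc, sq]
  congr 1 <;> omega

/-- the index of a point of the ball -/
theorem vorm_ix_mem {s R : ℝ} (hs : 0 < s) {N : ℕ} (hN : R ≤ N * s) {z : ℂ} (hz : ‖z‖ ≤ R) : vormIx s z ∈ vormBx N := by
  have key : ∀ t : ℝ, |t| ≤ R → -(N : ℤ) ≤ ⌊t / s⌋ ∧ ⌊t / s⌋ ≤ N := by
    intro t ht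
    rw [abs_le] at ht
    constructor
    · rw [Int.le_floor, le_div_iff₀ hs]
      push_cast
      linarith [ht.1]
    · have : t / s ≤ N := by rw [div_le_iff₀ hs]; linarith [ht.2]
      exact_mod_cast (Int.floor_le_floor this).trans (le_of_eq (Int.floor_natCast N))
  exact vorm_mem_bx.2 ⟨key _ ((Complex.abs_re_le_norm z).trans hz), key _ ((Complex.abs_im_le_norm z).trans hz)⟩

/-! ## 2. the grid event: measurability, monotonicity, locality -/

theorem vorm_nonempty_iff (η : Conf PvPt) (B : Set ℂ) : (cfSites η ∩ B).Nonempty ↔ η ∉ Conf.void (Prod.fst ⁻¹' B) := by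
  rw [Conf.mem_void]
  constructor
  · rintro ⟨_, ⟨p, hp, rfl⟩, hB⟩ h
    exact h p hp hB
  · intro h
    by_contra hc
    exact h fun p hp hB => hc ⟨p.1, ⟨p, hp, rfl⟩, hB⟩

theorem vorm_ev_compl (s : ℝ) (I : Finset (ℤ × ℤ)) : (vormEv s I)ᶜ = ⋃ k ∈ I, Conf.void (Prod.fst ⁻¹' vormSq s k) := by
  ext η
  simp only [vormEv, mem_compl_iff, mem_ofPred_eq, mem_iUnion, vorm_nonempty_iff, not_forall, not_not, exists_prop]

theorem vorm_fst_meas (s : ℝ) (k : ℤ × ℤ) : MeasurableSet (Prod.fst ⁻¹' vormSq s k : Set PvPt) := measurable_fst (vorm_sq_meas s k)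

theorem vorm_ev_meas (s : ℝ) (I : Finset (ℤ × ℤ)) : MeasurableSet (vormEv s I) := by
  rw [← MeasurableSet.compl_iff, vorm_ev_compl]
  exact Finset.measurableSet_biUnion I fun k _ => Conf.measurableSet_void (vorm_fst_meas s k)

/-- more points, fewer squares -/
theorem vorm_ev_mono {s : ℝ} {I J : Finset (ℤ × ℤ)} (hJ : J ⊆ I) {η η' : Conf PvPt} (hη : η.pts ⊆ η'.pts) (h : η ∈ vormEv s I) : η' ∈ vormEv s J := by
  intro k hk
  obtain ⟨u, ⟨p, hp, rfl⟩, hu⟩ := h k (hJ hk)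
  exact ⟨p.1, ⟨p, hη hp, rfl⟩, hu⟩

/-- the grid event reads the configuration in its squares only -/
theorem vorm_ev_congr {s : ℝ} {I : Finset (ℤ × ℤ)} {O : Set ℂ} (hO : ∀ k ∈ I, vormSq s k ⊆ O) {η η' : Conf PvPt}
    (h : cfSites η ∩ O = cfSites η' ∩ O) : η ∈ vormEv s I ↔ η' ∈ vormEv s I := by
  have key : ∀ {η η' : Conf PvPt}, cfSites η ∩ O = cfSites η' ∩ O → η ∈ vormEv s I → η' ∈ vormEv s I := by
    intro η η' h hη k hk
    obtain ⟨u, hu, hk'⟩ := hη k hk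
    have : u ∈ cfSites η' ∩ O := h ▸ ⟨hu, hO k hk hk'⟩
    exact ⟨u, this.1, hk'⟩
  exact ⟨key h, key h.symm⟩

theorem vorm_sites_restr (η : Conf PvPt) (O : Set ℂ) : cfSites (Conf.restr (Prod.fst ⁻¹' O) η) = cfSites η ∩ O := by
  ext u
  simp only [cfSites, Conf.restr, mem_image, mem_inter_iff, mem_preimage]
  constructor
  · rintro ⟨p, ⟨hp, hO⟩, rfl⟩
    exact ⟨⟨p, hp, rfl⟩, hO⟩
  · rintro ⟨⟨p, hp, rfl⟩, hO⟩
    exact ⟨p, ⟨hp, hO⟩, rfl⟩

theorem vorm_ev_restr {s : ℝ} {I : Finset (ℤ × ℤ)} {O : Set ℂ} (hO : ∀ k ∈ I, vormSq s k ⊆ O) (η : Conf PvPt) :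
    Conf.restr (Prod.fst ⁻¹' O) η ∈ vormEv s I ↔ η ∈ vormEv s I :=
  vorm_ev_congr hO (by rw [vorm_sites_restr, inter_assoc, inter_self])

/-! ## 3. the void probabilities -/

theorem vorm_int_fst (ε : ℝ) (B : Set ℂ) : pvInt ε (Prod.fst ⁻¹' B) = ENNReal.ofReal ((ε⁻¹) ^ 2) * volume B := by
  have e : (Prod.fst ⁻¹' B : Set PvPt) = B ×ˢ univ := by ext p; simp
  rw [pvInt, Measure.smul_apply, smul_eq_mul, e, Measure.prod_prod, measure_univ, mul_one]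

/-- **the void probability of a square** -/
theorem vorm_void (ε s : ℝ) (hs : 0 ≤ s) (k : ℤ × ℤ) : pvP ε (Conf.void (Prod.fst ⁻¹' vormSq s k)) = ENNReal.ofReal (Real.exp (-(s / ε) ^ 2)) := by
  rw [(pv_isPpp ε).void _ (vorm_fst_meas s k), vorm_int_fst, vorm_sq_volume, ← ENNReal.ofReal_mul hs, ← ENNReal.ofReal_mul (by positivity)]
  unfold expNeg
  rw [if_neg ENNReal.ofReal_ne_top, ENNReal.toReal_ofReal (by positivity)]
  congr 3
  rw [div_eq_mul_inv]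
  ring

/-- **the grid event fails with a probability at most `#I exp(-(s/ε)^2)`** -/
theorem vorm_ev_compl_le (ε s : ℝ) (hs : 0 ≤ s) (I : Finset (ℤ × ℤ)) : pvP ε (vormEv s I)ᶜ ≤ I.card * ENNReal.ofReal (Real.exp (-(s / ε) ^ 2)) := by
  rw [vorm_ev_compl]
  refine (measure_biUnion_finset_le I _).trans ?_
  rw [Finset.sum_congr rfl fun k _ => vorm_void ε s hs k, Finset.sum_const, nsmul_eq_mul]

theorem vorm_exp_tendsto {s : ℝ} (hs : 0 < s) : Tendsto (fun ε : ℝ => Real.exp (-(s / ε) ^ 2)) (𝓝[>] 0) (𝓝 0) := by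
  have h1 : Tendsto (fun ε : ℝ => s / ε) (𝓝[>] 0) atTop := by
    simp only [div_eq_mul_inv]
    exact tendsto_inv_nhdsGT_zero.const_mul_atTop hs
  have h2 : Tendsto (fun ε : ℝ => (s / ε) ^ 2) (𝓝[>] 0) atTop := (tendsto_pow_atTop two_ne_zero).comp h1
  exact Real.tendsto_exp_atBot.comp (tendsto_neg_atTop_atBot.comp h2)

/-- the grid event has a probability which tends to one -/
theorem vorm_ev_tendsto {s : ℝ} (hs : 0 < s) (I : Finset (ℤ × ℤ)) : Tendsto (fun ε : ℝ => pvP ε (vormEv s I)ᶜ) (𝓝[>] 0) (𝓝 0) := by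
  have h1 : Tendsto (fun ε : ℝ => (I.card : ℝ≥0∞) * ENNReal.ofReal (Real.exp (-(s / ε) ^ 2))) (𝓝[>] 0) (𝓝 ((I.card : ℝ≥0∞) * 0)) := by
    refine ENNReal.Tendsto.const_mul ?_ (Or.inr (ENNReal.natCast_ne_top _))
    have := (ENNReal.continuous_ofReal.tendsto 0).comp (vorm_exp_tendsto hs)
    rwa [ENNReal.ofReal_zero] at this
  rw [mul_zero] at h1
  exact tendsto_of_tendsto_of_tendsto_of_le_of_le tendsto_const_nhds h1 (fun _ => bot_le) fun ε => vorm_ev_compl_le ε s hs.le I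

/-! ## 4. density on the grid event -/

/-- on the grid event the sites are `2 s`-dense on every set covered by the squares -/
theorem vorm_dense {s : ℝ} (hs : 0 < s) {I : Finset (ℤ × ℤ)} {η : Conf PvPt} (h : η ∈ vormEv s I) {K : Set ℂ} (hK : ∀ z ∈ K, vormIx s z ∈ I) :
    VorDense (cfSites η) K (2 * s) := by
  intro z hz
  obtain ⟨u, hu, hk⟩ := h _ (hK z hz)
  exact ⟨u, hu, vorm_sq_dist (vorm_mem_sq hs z) hk⟩

/-- the ball version -/
theorem vorm_ball {s R : ℝ} (hs : 0 < s) {N : ℕ} (hN : R ≤ N * s) {η : Conf PvPt} (h : η ∈ vormEv s (vormBx N)) :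
    VorDense (cfSites η) (closedBall 0 R) (2 * s) :=
  vorm_dense hs h fun z hz => vorm_ix_mem hs hN (by rwa [mem_closedBall, dist_zero_right] at hz)

/-- the squares of `vormBx N` lie in the ball of radius `2 (N + 1) s` -/
theorem vorm_sq_subset {s : ℝ} (hs : 0 < s) {N : ℕ} {k : ℤ × ℤ} (hk : k ∈ vormBx N) : vormSq s k ⊆ closedBall 0 (2 * ((N : ℝ) + 1) * s) := by
  rintro z ⟨⟨a1, a2⟩, ⟨a3, a4⟩⟩
  obtain ⟨⟨k1, k2⟩, k3, k4⟩ := vorm_mem_bx.1 hk
  have c1 : -(N : ℝ) ≤ k.1 := by exact_mod_cast k1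
  have c2 : (k.1 : ℝ) ≤ N := by exact_mod_cast k2
  have c3 : -(N : ℝ) ≤ k.2 := by exact_mod_cast k3
  have c4 : (k.2 : ℝ) ≤ N := by exact_mod_cast k4
  have h1 : |z.re| ≤ ((N : ℝ) + 1) * s := by
    rw [abs_le]; constructor <;> nlinarith
  have h2 : |z.im| ≤ ((N : ℝ) + 1) * s := by
    rw [abs_le]; constructor <;> nlinarith
  rw [mem_closedBall, dist_zero_right]
  calc ‖z‖ ≤ |z.re| + |z.im| := Complex.norm_le_abs_re_add_abs_im _
    _ ≤ 2 * ((N : ℝ) + 1) * s := by linarith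

/-! ## 5. the mesh event of a set -/

/-- **the mesh event of `K` at the scale `ρ`**: every square of side `ρ / 2` which meets `K` contains a site -/
def vormG (K : Set ℂ) (ρ : ℝ) : Set (Conf PvPt) := {η | ∀ k : ℤ × ℤ, (vormSq (ρ / 2) k ∩ K).Nonempty → (cfSites η ∩ vormSq (ρ / 2) k).Nonempty}

theorem vorm_G_eqns_cite : True := by
  have := @vormG.eq_1
  trivial

theorem vorm_G_meas (K : Set ℂ) (ρ : ℝ) : MeasurableSet (vormG K ρ) := by
  have e : vormG K ρ = ⋂ k : ℤ × ℤ, {η | (vormSq (ρ / 2) k ∩ K).Nonempty → η ∉ Conf.void (Prod.fst ⁻¹' vormSq (ρ / 2) k)} := by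
    ext η
    simp only [vormG, mem_ofPred_eq, mem_iInter, vorm_nonempty_iff]
  rw [e]
  refine MeasurableSet.iInter fun k => ?_
  by_cases h : (vormSq (ρ / 2) k ∩ K).Nonempty
  · simp only [h, true_imp_iff]
    exact (Conf.measurableSet_void (vorm_fst_meas _ k)).compl
  · simp only [h, false_imp_iff, ofPred_true, MeasurableSet.univ]

theorem vorm_G_anti {K K' : Set ℂ} (h : K ⊆ K') (ρ : ℝ) : vormG K' ρ ⊆ vormG K ρ :=
  fun _ hη k hk => hη k (hk.mono (inter_subset_inter_right _ h))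

theorem vorm_G_mono_pts {K : Set ℂ} {ρ : ℝ} {η η' : Conf PvPt} (hη : η.pts ⊆ η'.pts) (h : η ∈ vormG K ρ) : η' ∈ vormG K ρ := by
  intro k hk
  obtain ⟨u, ⟨p, hp, rfl⟩, hu⟩ := h k hk
  exact ⟨p.1, ⟨p, hη hp, rfl⟩, hu⟩

/-- on the mesh event the sites are `ρ`-dense on `K` -/
theorem vorm_G_dense {K : Set ℂ} {ρ : ℝ} (hρ : 0 < ρ) {η : Conf PvPt} (h : η ∈ vormG K ρ) : VorDense (cfSites η) K ρ := by
  intro z hz
  have hs : 0 < ρ / 2 := by positivity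
  obtain ⟨u, hu, hk⟩ := h (vormIx (ρ / 2) z) ⟨z, vorm_mem_sq hs z, hz⟩
  exact ⟨u, hu, (vorm_sq_dist (vorm_mem_sq hs z) hk).trans (by linarith)⟩

/-- the squares which meet `K` lie in the collar -/
theorem vorm_sq_nbd {K : Set ℂ} {ρ : ℝ} {k : ℤ × ℤ} (hk : (vormSq (ρ / 2) k ∩ K).Nonempty) : vormSq (ρ / 2) k ⊆ vorNbd K ρ := by
  obtain ⟨z, hz, hK⟩ := hk
  exact fun u hu => ⟨z, hK, (vorm_sq_dist hu hz).trans (by linarith)⟩

/-- **the mesh event is local**: it reads the sites in the collar `K^{+ρ}` only -/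
theorem vorm_G_congr {K O : Set ℂ} {ρ : ℝ} (hO : vorNbd K ρ ⊆ O) {η η' : Conf PvPt} (h : cfSites η ∩ O = cfSites η' ∩ O) :
    η ∈ vormG K ρ ↔ η' ∈ vormG K ρ := by
  have key : ∀ {η η' : Conf PvPt}, cfSites η ∩ O = cfSites η' ∩ O → η ∈ vormG K ρ → η' ∈ vormG K ρ := by
    intro η η' h hη k hk
    obtain ⟨u, hu, hk'⟩ := hη k hk
    have : u ∈ cfSites η' ∩ O := h ▸ ⟨hu, hO (vorm_sq_nbd hk hk')⟩
    exact ⟨u, this.1, hk'⟩
  exact ⟨key h, key h.symm⟩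

theorem vorm_G_restr {K O : Set ℂ} {ρ : ℝ} (hO : vorNbd K ρ ⊆ O) (η : Conf PvPt) : Conf.restr (Prod.fst ⁻¹' O) η ∈ vormG K ρ ↔ η ∈ vormG K ρ :=
  vorm_G_congr hO (by rw [vorm_sites_restr, inter_assoc, inter_self])

/-- the index of a square is determined by any of its points -/
theorem vorm_ix_eq {s : ℝ} (hs : 0 < s) {k : ℤ × ℤ} {z : ℂ} (hz : z ∈ vormSq s k) : vormIx s z = k := by
  obtain ⟨⟨a1, a2⟩, ⟨a3, a4⟩⟩ := hz
  refine Prod.ext ?_ ?_
  · show ⌊z.re / s⌋ = k.1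
    rw [Int.floor_eq_iff, le_div_iff₀ hs, div_lt_iff₀ hs]
    exact ⟨a1, a2⟩
  · show ⌊z.im / s⌋ = k.2
    rw [Int.floor_eq_iff, le_div_iff₀ hs, div_lt_iff₀ hs]
    exact ⟨a3, a4⟩

/-- the indices of the squares which meet a ball of radius `≤ N s` -/
theorem vorm_ix_ball {s R : ℝ} (hs : 0 < s) {N : ℕ} (hN : R ≤ N * s) {c z : ℂ} (hz : ‖z - c‖ ≤ R) : vormIx s z - vormIx s c ∈ vormBx N := by
  have key : ∀ t t0 : ℝ, |t - t0| ≤ R → -(N : ℤ) ≤ ⌊t / s⌋ - ⌊t0 / s⌋ ∧ ⌊t / s⌋ - ⌊t0 / s⌋ ≤ N := by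
    intro t t0 ht
    rw [abs_le] at ht
    have e1 : t / s ≤ t0 / s + N := by
      rw [div_add' _ _ _ hs.ne', div_le_div_iff_of_pos_right hs]; linarith [ht.2]
    have e2 : t0 / s ≤ t / s + N := by
      rw [div_add' _ _ _ hs.ne', div_le_div_iff_of_pos_right hs]; linarith [ht.1]
    have f1 := Int.floor_le_floor e1
    have f2 := Int.floor_le_floor e2
    rw [Int.floor_add_natCast] at f1 f2
    constructor <;> omega
  have h1 := key z.re c.re (by rw [← Complex.sub_re]; exact (Complex.abs_re_le_norm _).trans hz)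
  have h2 := key z.im c.im (by rw [← Complex.sub_im]; exact (Complex.abs_im_le_norm _).trans hz)
  exact vorm_mem_bx.2 ⟨h1, h2⟩

/-- the mesh event of a subset of a ball contains a grid event with `(2 N + 1)^2` squares -/
theorem vorm_ev_subset_G {K : Set ℂ} {ρ R : ℝ} (hρ : 0 < ρ) {N : ℕ} (hN : R ≤ N * (ρ / 2)) {c : ℂ} (hK : K ⊆ closedBall c R) :
    vormEv (ρ / 2) ((vormBx N).image fun k => k + vormIx (ρ / 2) c) ⊆ vormG K ρ := by
  intro η hη k hk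
  have hs : 0 < ρ / 2 := by positivity
  obtain ⟨z, hz, hzK⟩ := hk
  refine hη k (Finset.mem_image.2 ⟨k - vormIx (ρ / 2) c, ?_, sub_add_cancel _ _⟩)
  have h1 := hK hzK
  rw [mem_closedBall, dist_eq_norm] at h1
  have := vorm_ix_ball hs hN h1
  rwa [vorm_ix_eq hs hz] at this

/-- **the probability of the mesh event**, uniform in the position of the ball -/
theorem vorm_G_compl_le (ε : ℝ) {K : Set ℂ} {ρ R : ℝ} (hρ : 0 < ρ) {N : ℕ} (hN : R ≤ N * (ρ / 2)) {c : ℂ} (hK : K ⊆ closedBall c R) :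
    pvP ε (vormG K ρ)ᶜ ≤ ((2 * N + 1) ^ 2 : ℕ) * ENNReal.ofReal (Real.exp (-(ρ / 2 / ε) ^ 2)) := by
  refine (measure_mono (compl_subset_compl.2 (vorm_ev_subset_G hρ hN hK))).trans ((vorm_ev_compl_le ε (ρ / 2) (by positivity) _).trans ?_)
  refine mul_le_mul_left ?_ _
  rw [← vorm_bx_card N]
  exact_mod_cast Finset.card_image_le

/-- the mesh event of a bounded set has a probability which tends to one -/
theorem vorm_G_tendsto {K : Set ℂ} (hK : Bornology.IsBounded K) {ρ : ℝ} (hρ : 0 < ρ) : Tendsto (fun ε : ℝ => pvP ε (vormG K ρ)ᶜ) (𝓝[>] 0) (𝓝 0) := by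
  obtain ⟨R, hR⟩ := hK.subset_closedBall 0
  obtain ⟨N, hN⟩ := exists_nat_ge (R / (ρ / 2))
  have hs : 0 < ρ / 2 := by positivity
  rw [div_le_iff₀ hs] at hN
  have h1 : Tendsto (fun ε : ℝ => (((2 * N + 1) ^ 2 : ℕ) : ℝ≥0∞) * ENNReal.ofReal (Real.exp (-(ρ / 2 / ε) ^ 2))) (𝓝[>] 0) (𝓝 ((((2 * N + 1) ^ 2 : ℕ) : ℝ≥0∞) * 0)) := by
    refine ENNReal.Tendsto.const_mul ?_ (Or.inr (ENNReal.natCast_ne_top _))
    have := (ENNReal.continuous_ofReal.tendsto 0).comp (vorm_exp_tendsto hs)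
    rwa [ENNReal.ofReal_zero] at this
  rw [mul_zero] at h1
  exact tendsto_of_tendsto_of_tendsto_of_le_of_le tendsto_const_nhds h1 (fun _ => bot_le) fun ε => vorm_G_compl_le ε hρ hN hR

/-! ## 6. TEX[Cardy:lemma:mesh] (i): small cells, local determination -/

theorem vorm_nbd_nbd (K : Set ℂ) (a b : ℝ) : vorNbd (vorNbd K a) b ⊆ vorNbd K (a + b) := by
  rintro w ⟨z, ⟨y, hy, hzy⟩, hwz⟩
  refine ⟨y, hy, ?_⟩
  calc ‖w - y‖ = ‖(w - z) + (z - y)‖ := by ring_nf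
    _ ≤ ‖w - z‖ + ‖z - y‖ := norm_add_le _ _
    _ ≤ a + b := by linarith

theorem vorm_nbd_mono (K : Set ℂ) {a b : ℝ} (h : a ≤ b) : vorNbd K a ⊆ vorNbd K b := fun _ ⟨z, hz, hw⟩ => ⟨z, hz, hw.trans h⟩

theorem vorm_nbd_bounded {K : Set ℂ} (hK : Bornology.IsBounded K) (a : ℝ) : Bornology.IsBounded (vorNbd K a) := by
  obtain ⟨R, hR⟩ := hK.subset_closedBall 0
  refine (isBounded_closedBall (x := (0 : ℂ)) (r := R + a)).subset ?_
  rintro w ⟨z, hz, hw⟩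
  have h1 := hR hz
  rw [mem_closedBall, dist_zero_right] at h1 ⊢
  calc ‖w‖ = ‖(w - z) + z‖ := by ring_nf
    _ ≤ ‖w - z‖ + ‖z‖ := norm_add_le _ _
    _ ≤ R + a := by linarith

/-- small cells: on the mesh event of `K^{+3ρ}` a cell which meets `K` lies in the ball of radius `ρ` round its centre -/
theorem vorm_cell_small {K : Set ℂ} {ρ : ℝ} (hρ : 0 < ρ) {η : Conf PvPt} (h : η ∈ vormG (vorNbd K (3 * ρ)) ρ) {v : ℂ}
    (hv : (vorCell (cfSites η) v ∩ K).Nonempty) : vorCell (cfSites η) v ⊆ closedBall v ρ := by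
  have hd := vorm_G_dense hρ h
  obtain ⟨z, hz, hzK⟩ := hv
  have h1 : ‖z - v‖ ≤ ρ := vor_site_near hd hz (vor_subset_nbd K (by positivity) hzK)
  refine vor_cell_subset_ball hρ.le (R := 2 * ρ) (by linarith) (hd.mono subset_rfl ?_ le_rfl)
  intro w hw
  rw [mem_closedBall, dist_eq_norm] at hw
  refine ⟨z, hzK, ?_⟩
  calc ‖w - z‖ = ‖(w - v) - (z - v)‖ := by ring_nf
    _ ≤ ‖w - v‖ + ‖z - v‖ := norm_sub_le _ _
    _ ≤ 3 * ρ := by linarith

/-- the sites of the collar from the points of the collar -/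
theorem vorm_sites_congr {η η' : Conf PvPt} {O : Set ℂ} (h : η.pts ∩ Prod.fst ⁻¹' O = η'.pts ∩ Prod.fst ⁻¹' O) : cfSites η ∩ O = cfSites η' ∩ O := by
  have key : ∀ {η η' : Conf PvPt}, η.pts ∩ Prod.fst ⁻¹' O = η'.pts ∩ Prod.fst ⁻¹' O → cfSites η ∩ O ⊆ cfSites η' ∩ O := by
    rintro η η' h _ ⟨⟨p, hp, rfl⟩, hO⟩
    have : p ∈ η'.pts ∩ Prod.fst ⁻¹' O := h ▸ ⟨hp, hO⟩
    exact ⟨⟨p, this.1, rfl⟩, hO⟩
  exact Subset.antisymm (key h) (key h.symm)

/-- **local determination of the cells**: the configuration may be changed arbitrarily off the collar -/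
theorem vorm_loc_cell {K : Set ℂ} {ρ : ℝ} (hρ : 0 < ρ) {η η' : Conf PvPt} (h : η ∈ vormG K ρ)
    (hpts : η.pts ∩ Prod.fst ⁻¹' vorNbd K ρ = η'.pts ∩ Prod.fst ⁻¹' vorNbd K ρ) {z v : ℂ} (hz : z ∈ K) :
    (v ∈ cfSites η ∧ z ∈ vorCell (cfSites η) v) ↔ (v ∈ cfSites η' ∧ z ∈ vorCell (cfSites η') v) :=
  vor_loc (vorm_G_dense hρ h) (vorm_sites_congr hpts) hz

/-- **local determination of the colouring** -/
theorem vorm_loc_black {K : Set ℂ} {ρ : ℝ} (hρ : 0 < ρ) {η η' : Conf PvPt} (h : η ∈ vormG K ρ)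
    (hpts : η.pts ∩ Prod.fst ⁻¹' vorNbd K ρ = η'.pts ∩ Prod.fst ⁻¹' vorNbd K ρ) : cfBlack η ∩ K = cfBlack η' ∩ K := by
  rw [cfBlack_eq_vor, cfBlack_eq_vor]
  refine vor_loc_un (vorm_G_dense hρ h) (vorm_sites_congr hpts) (fun v hv => ⟨_, hv, rfl⟩) (fun v hv => ⟨_, hv, rfl⟩) ?_
  have key : ∀ {η η' : Conf PvPt}, η.pts ∩ Prod.fst ⁻¹' vorNbd K ρ = η'.pts ∩ Prod.fst ⁻¹' vorNbd K ρ →
      {v | (v, true) ∈ η.pts} ∩ vorNbd K ρ ⊆ {v | (v, true) ∈ η'.pts} ∩ vorNbd K ρ := by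
    rintro η η' h v ⟨hv, hO⟩
    have : ((v, true) : PvPt) ∈ η'.pts ∩ Prod.fst ⁻¹' vorNbd K ρ := h ▸ ⟨hv, hO⟩
    exact ⟨this.1, hO⟩
  exact Subset.antisymm (key hpts) (key hpts.symm)

/-- the restriction to a set which contains the collar does not change the colouring of `K` -/
theorem vorm_black_restr {K O : Set ℂ} {ρ : ℝ} (hρ : 0 < ρ) (hO : vorNbd K ρ ⊆ O) {η : Conf PvPt} (h : η ∈ vormG K ρ) :
    cfBlack (Conf.restr (Prod.fst ⁻¹' O) η) ∩ K = cfBlack η ∩ K := by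
  refine (vorm_loc_black hρ h ?_).symm
  show η.pts ∩ Prod.fst ⁻¹' vorNbd K ρ = η.pts ∩ Prod.fst ⁻¹' O ∩ Prod.fst ⁻¹' vorNbd K ρ
  rw [inter_assoc, inter_eq_self_of_subset_right (preimage_mono hO)]

/-- **TEX[Cardy:lemma:mesh] (i)** for the cells.   ONE measurable event `G` for all `ε`, which reads the sites of the collar `K^{+4ρ}` only, `P_ε(G^c) → 0`; on `G`: density, small cells, local determination -/
theorem vorm_mesh_i {K : Set ℂ} (hK : Bornology.IsBounded K) {ρ : ℝ} (hρ : 0 < ρ) : ∃ G : Set (Conf PvPt), MeasurableSet G ∧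
    Tendsto (fun ε : ℝ => pvP ε Gᶜ) (𝓝[>] 0) (𝓝 0) ∧
    (∀ η η' : Conf PvPt, cfSites η ∩ vorNbd K (4 * ρ) = cfSites η' ∩ vorNbd K (4 * ρ) → (η ∈ G ↔ η' ∈ G)) ∧
    ∀ η ∈ G, VorDense (cfSites η) (vorNbd K (3 * ρ)) ρ ∧
      (∀ v, (vorCell (cfSites η) v ∩ K).Nonempty → vorCell (cfSites η) v ⊆ closedBall v ρ) ∧
      ∀ η' : Conf PvPt, η.pts ∩ Prod.fst ⁻¹' vorNbd K ρ = η'.pts ∩ Prod.fst ⁻¹' vorNbd K ρ → cfBlack η ∩ K = cfBlack η' ∩ K ∧
        ∀ z ∈ K, ∀ v, (v ∈ cfSites η ∧ z ∈ vorCell (cfSites η) v) ↔ (v ∈ cfSites η' ∧ z ∈ vorCell (cfSites η') v) := by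
  refine ⟨vormG (vorNbd K (3 * ρ)) ρ, vorm_G_meas _ _, vorm_G_tendsto (vorm_nbd_bounded hK _) hρ, fun η η' h => ?_, fun η hη => ⟨vorm_G_dense hρ hη,
    fun v hv => vorm_cell_small hρ hη hv, fun η' hpts => ?_⟩⟩
  · exact vorm_G_congr ((vorm_nbd_nbd K (3 * ρ) ρ).trans (vorm_nbd_mono K (by linarith))) h
  · have hη' : η ∈ vormG K ρ := vorm_G_anti (vor_subset_nbd K (by positivity)) ρ hη
    exact ⟨vorm_loc_black hρ hη' hpts, fun z hz v => vorm_loc_cell hρ hη' hpts hz⟩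

/-! ## 7. TEX[Cardy:lemma:mesh] (ii): remote sites -/

/-- a cell which meets `K` far from its centre excludes the mesh event -/
theorem vorm_far_subset (K : Set ℂ) {R : ℝ} (hR : 0 < R) :
    {η : Conf PvPt | ∃ v z, z ∈ K ∧ z ∈ vorCell (cfSites η) v ∧ R < ‖z - v‖} ⊆ (vormG K R)ᶜ := by
  rintro η ⟨v, z, hzK, hz, hlt⟩ hG
  exact absurd (vor_site_near (vorm_G_dense hR hG) hz hzK) (not_le.2 hlt)

/-- **TEX[Cardy:lemma:mesh] (ii)**: Gaussian tail for the distance between a point of the ball `closedBall c r` and the centre of its cell -/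
theorem vorm_tail (ε : ℝ) {r R : ℝ} (hR : 0 < R) {N : ℕ} (hN : r ≤ N * (R / 2)) (c : ℂ) :
    pvP ε {η | ∃ v z, z ∈ closedBall c r ∧ z ∈ vorCell (cfSites η) v ∧ R < ‖z - v‖} ≤ ((2 * N + 1) ^ 2 : ℕ) * ENNReal.ofReal (Real.exp (-(R / 2 / ε) ^ 2)) :=
  (measure_mono (vorm_far_subset _ hR)).trans (vorm_G_compl_le ε hR hN subset_rfl)

/-- the case `2 r ≤ R`: nine squares -/
theorem vorm_tail_nine (ε : ℝ) {r R : ℝ} (hR : 0 < R) (hr : 2 * r ≤ R) (c : ℂ) :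
    pvP ε {η | ∃ v z, z ∈ closedBall c r ∧ z ∈ vorCell (cfSites η) v ∧ R < ‖z - v‖} ≤ 9 * ENNReal.ofReal (Real.exp (-(R / 2 / ε) ^ 2)) := by
  have := vorm_tail ε hR (N := 1) (r := r) (by push_cast; linarith) c
  norm_num at this
  exact this

/-! ## 8. the frozen law -/

theorem vorm_law (ε : ℝ) {G : Set (Conf PvPt)} (hG : MeasurableSet G) : pvLaw ε {ω | pvConf ω ∉ G} = pvP ε Gᶜ := by
  unfold pvP
  rw [Measure.map_apply measurable_pvConf hG.compl]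
  rfl

theorem vorm_law_compl_le (ε : ℝ) {K : Set ℂ} {ρ R : ℝ} (hρ : 0 < ρ) {N : ℕ} (hN : R ≤ N * (ρ / 2)) {c : ℂ} (hK : K ⊆ closedBall c R) :
    pvLaw ε {ω | pvConf ω ∉ vormG K ρ} ≤ ((2 * N + 1) ^ 2 : ℕ) * ENNReal.ofReal (Real.exp (-(ρ / 2 / ε) ^ 2)) := by
  rw [vorm_law ε (vorm_G_meas K ρ)]
  exact vorm_G_compl_le ε hρ hN hK

/-- the density event under the frozen law (outer measure) -/
theorem vorm_law_dense (ε : ℝ) {K : Set ℂ} {ρ R : ℝ} (hρ : 0 < ρ) {N : ℕ} (hN : R ≤ N * (ρ / 2)) {c : ℂ} (hK : K ⊆ closedBall c R) :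
    pvLaw ε {ω | ¬ VorDense (cfSites (pvConf ω)) K ρ} ≤ ((2 * N + 1) ^ 2 : ℕ) * ENNReal.ofReal (Real.exp (-(ρ / 2 / ε) ^ 2)) :=
  (measure_mono (show {ω | ¬ VorDense (cfSites (pvConf ω)) K ρ} ⊆ {ω | pvConf ω ∉ vormG K ρ} from
    fun _ hω hG => hω (vorm_G_dense hρ hG))).trans (vorm_law_compl_le ε hρ hN hK)

theorem vorm_law_tendsto {K : Set ℂ} (hK : Bornology.IsBounded K) {ρ : ℝ} (hρ : 0 < ρ) :
    Tendsto (fun ε : ℝ => pvLaw ε {ω | pvConf ω ∉ vormG K ρ}) (𝓝[>] 0) (𝓝 0) := by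
  simp only [vorm_law _ (vorm_G_meas K ρ)]
  exact vorm_G_tendsto hK hρ

/-- the frozen black set inside `K` is determined by the points of the collar -/
theorem vorm_law_black {K : Set ℂ} {ρ : ℝ} (hρ : 0 < ρ) {ω ω' : PVSample} (h : pvConf ω ∈ vormG K ρ)
    (hpts : (pvConf ω).pts ∩ Prod.fst ⁻¹' vorNbd K ρ = (pvConf ω').pts ∩ Prod.fst ⁻¹' vorNbd K ρ) : pvBlack ω ∩ K = pvBlack ω' ∩ K := by
  rw [pvBlack_eq, pvBlack_eq]
  exact vorm_loc_black hρ h hpts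

/-! ## 9. independence up to the mesh exception      (02-probability.tex l.195-199: "tests in regions with disjoint positive collars use independent point and color data ... up to a vanishing mesh exception") -/

section decouple

open ProbabilityTheory

variable {E : Type*} [MeasurableSpace E] {m : Measure E} {μ : Measure (Conf E)}

/-- the restrictions of a Poisson process to two disjoint sets are independent -/
theorem vorm_indep_disj (h : IsPpp m μ) {O₁ O₂ : Set E} (h₁ : MeasurableSet O₁) (h₂ : MeasurableSet O₂) (hd : Disjoint O₁ O₂) :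
    IndepFun (Conf.restr O₁) (Conf.restr O₂) μ := by
  have h3 := (h.indep h₁).comp measurable_id (Conf.measurable_restr h₂)
  have e : Conf.restr O₂ ∘ Conf.restr O₁ᶜ = (Conf.restr O₂ : Conf E → Conf E) := by
    funext η
    refine Conf.ext ?_
    show η.pts ∩ O₁ᶜ ∩ O₂ = η.pts ∩ O₂
    have hsub : O₂ ⊆ O₁ᶜ := fun p hp => disjoint_right.1 hd hp
    rw [inter_assoc, inter_eq_self_of_subset_right hsub]
  rwa [e, Function.id_comp] at h3

/-- two sets which agree off `B` -/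
theorem vorm_abs_sub_le [IsFiniteMeasure μ] {A A' B : Set (Conf E)} (h : ∀ η, η ∉ B → (η ∈ A ↔ η ∈ A')) : |μ.real A - μ.real A'| ≤ μ.real B := by
  have key : ∀ {A A' : Set (Conf E)}, (∀ η, η ∉ B → (η ∈ A ↔ η ∈ A')) → μ.real A ≤ μ.real A' + μ.real B := by
    intro A A' h
    refine (measureReal_mono ?_).trans (measureReal_union_le _ _)
    intro η hη
    by_cases hB : η ∈ B
    · exact Or.inr hB
    · exact Or.inl ((h η hB).1 hη)
  rw [abs_le]
  constructor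
  · linarith [key fun η hη => (h η hη).symm]
  · linarith [key h]

/-- **DECOUPLING**.   `A_i` is, on the event `G_i`, a function of the restriction of the configuration to `O_i`; `O₁`, `O₂` disjoint.   Then `A₁`, `A₂` are independent up to `2 (P(G₁ᶜ) + P(G₂ᶜ))` -/
theorem vorm_decouple (h : IsPpp m μ) {O₁ O₂ : Set E} (h₁ : MeasurableSet O₁) (h₂ : MeasurableSet O₂) (hd : Disjoint O₁ O₂)
    {A₁ A₂ G₁ G₂ : Set (Conf E)} (mA₁ : MeasurableSet A₁) (mA₂ : MeasurableSet A₂)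
    (d₁ : ∀ η ∈ G₁, (Conf.restr O₁ η ∈ A₁ ↔ η ∈ A₁)) (d₂ : ∀ η ∈ G₂, (Conf.restr O₂ η ∈ A₂ ↔ η ∈ A₂)) :
    |μ.real (A₁ ∩ A₂) - μ.real A₁ * μ.real A₂| ≤ 2 * (μ.real G₁ᶜ + μ.real G₂ᶜ) := by
  have := h.prob
  set B₁ := Conf.restr O₁ ⁻¹' A₁ with hB₁
  set B₂ := Conf.restr O₂ ⁻¹' A₂ with hB₂
  have hind : μ.real (B₁ ∩ B₂) = μ.real B₁ * μ.real B₂ := by
    have := (vorm_indep_disj h h₁ h₂ hd).measure_inter_preimage_eq_mul A₁ A₂ mA₁ mA₂
    rw [measureReal_def, this, ENNReal.toReal_mul]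
    rfl
  have e₁ : |μ.real A₁ - μ.real B₁| ≤ μ.real G₁ᶜ := vorm_abs_sub_le fun η hη => (d₁ η (not_not.1 hη)).symm
  have e₂ : |μ.real A₂ - μ.real B₂| ≤ μ.real G₂ᶜ := vorm_abs_sub_le fun η hη => (d₂ η (not_not.1 hη)).symm
  have e₃ : |μ.real (A₁ ∩ A₂) - μ.real (B₁ ∩ B₂)| ≤ μ.real (G₁ᶜ ∪ G₂ᶜ) := by
    refine vorm_abs_sub_le fun η hη => ?_
    rw [mem_union, not_or] at hη
    exact and_congr (d₁ η (not_not.1 hη.1)).symm (d₂ η (not_not.1 hη.2)).symm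
  have e₄ : μ.real (G₁ᶜ ∪ G₂ᶜ) ≤ μ.real G₁ᶜ + μ.real G₂ᶜ := measureReal_union_le _ _
  have a₁ : 0 ≤ μ.real A₁ ∧ μ.real A₁ ≤ 1 := ⟨measureReal_nonneg, measureReal_le_one⟩
  have b₂ : 0 ≤ μ.real B₂ ∧ μ.real B₂ ≤ 1 := ⟨measureReal_nonneg, measureReal_le_one⟩
  have e₅ : |μ.real A₁ * μ.real A₂ - μ.real B₁ * μ.real B₂| ≤ μ.real G₁ᶜ + μ.real G₂ᶜ := by
    have : μ.real A₁ * μ.real A₂ - μ.real B₁ * μ.real B₂ = μ.real A₁ * (μ.real A₂ - μ.real B₂) + (μ.real A₁ - μ.real B₁) * μ.real B₂ := by ring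
    rw [this]
    refine (abs_add_le _ _).trans ?_
    rw [abs_mul, abs_mul, abs_of_nonneg a₁.1, abs_of_nonneg b₂.1]
    nlinarith [abs_nonneg (μ.real A₂ - μ.real B₂), abs_nonneg (μ.real A₁ - μ.real B₁)]
  have : μ.real (A₁ ∩ A₂) - μ.real A₁ * μ.real A₂ = (μ.real (A₁ ∩ A₂) - μ.real (B₁ ∩ B₂)) - (μ.real A₁ * μ.real A₂ - μ.real B₁ * μ.real B₂) := by
    rw [hind]; ring
  rw [this]
  refine (abs_sub _ _).trans ?_
  linarith

end decouple

/-- an event which reads the colouring of `K` only -/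
def VormRd (K : Set ℂ) (A : Set (Conf PvPt)) : Prop := ∀ η η' : Conf PvPt, cfBlack η ∩ K = cfBlack η' ∩ K → (η ∈ A ↔ η' ∈ A)

theorem vorm_rd_eqns_cite : True := by
  have := @VormRd.eq_1
  trivial

theorem VormRd.restr {K O : Set ℂ} {A : Set (Conf PvPt)} (hA : VormRd K A) {ρ : ℝ} (hρ : 0 < ρ) (hO : vorNbd K ρ ⊆ O) {η : Conf PvPt} (h : η ∈ vormG K ρ) :
    Conf.restr (Prod.fst ⁻¹' O) η ∈ A ↔ η ∈ A := hA _ _ (vorm_black_restr hρ hO h)

theorem VormRd.compl {K : Set ℂ} {A : Set (Conf PvPt)} (hA : VormRd K A) : VormRd K Aᶜ := fun η η' h => not_congr (hA η η' h)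

theorem VormRd.inter {K : Set ℂ} {A B : Set (Conf PvPt)} (hA : VormRd K A) (hB : VormRd K B) : VormRd K (A ∩ B) :=
  fun η η' h => and_congr (hA η η' h) (hB η η' h)

theorem VormRd.union {K : Set ℂ} {A B : Set (Conf PvPt)} (hA : VormRd K A) (hB : VormRd K B) : VormRd K (A ∪ B) :=
  fun η η' h => or_congr (hA η η' h) (hB η η' h)

theorem VormRd.mono {K K' : Set ℂ} {A : Set (Conf PvPt)} (hA : VormRd K A) (h : K ⊆ K') : VormRd K' A := fun η η' e => hA η η' (by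
  rw [← inter_eq_self_of_subset_right h, ← inter_assoc, ← inter_assoc, e])

/-- **asymptotic independence of percolation events in regions with disjoint collars**: explicit error -/
theorem vorm_indep_err (ε : ℝ) {K₁ K₂ O₁ O₂ : Set ℂ} {ρ : ℝ} (hρ : 0 < ρ) (m₁ : MeasurableSet O₁) (m₂ : MeasurableSet O₂) (hd : Disjoint O₁ O₂)
    (c₁ : vorNbd K₁ ρ ⊆ O₁) (c₂ : vorNbd K₂ ρ ⊆ O₂) {A₁ A₂ : Set (Conf PvPt)} (mA₁ : MeasurableSet A₁) (mA₂ : MeasurableSet A₂)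
    (r₁ : VormRd K₁ A₁) (r₂ : VormRd K₂ A₂) :
    |(pvP ε).real (A₁ ∩ A₂) - (pvP ε).real A₁ * (pvP ε).real A₂| ≤ 2 * ((pvP ε).real (vormG K₁ ρ)ᶜ + (pvP ε).real (vormG K₂ ρ)ᶜ) :=
  vorm_decouple (pv_isPpp ε) (measurable_fst m₁) (measurable_fst m₂) (hd.preimage _) mA₁ mA₂ (fun _ h => r₁.restr hρ c₁ h) (fun _ h => r₂.restr hρ c₂ h)

/-- the error tends to zero -/
theorem vorm_indep_tendsto {K₁ K₂ O₁ O₂ : Set ℂ} (b₁ : Bornology.IsBounded K₁) (b₂ : Bornology.IsBounded K₂) {ρ : ℝ} (hρ : 0 < ρ)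
    (m₁ : MeasurableSet O₁) (m₂ : MeasurableSet O₂) (hd : Disjoint O₁ O₂) (c₁ : vorNbd K₁ ρ ⊆ O₁) (c₂ : vorNbd K₂ ρ ⊆ O₂)
    {A₁ A₂ : ℝ → Set (Conf PvPt)} (mA₁ : ∀ ε, MeasurableSet (A₁ ε)) (mA₂ : ∀ ε, MeasurableSet (A₂ ε)) (r₁ : ∀ ε, VormRd K₁ (A₁ ε)) (r₂ : ∀ ε, VormRd K₂ (A₂ ε)) :
    Tendsto (fun ε : ℝ => (pvP ε).real (A₁ ε ∩ A₂ ε) - (pvP ε).real (A₁ ε) * (pvP ε).real (A₂ ε)) (𝓝[>] 0) (𝓝 0) := by
  have t : ∀ {K : Set ℂ}, Bornology.IsBounded K → Tendsto (fun ε : ℝ => (pvP ε).real (vormG K ρ)ᶜ) (𝓝[>] 0) (𝓝 0) := by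
    intro K hK
    have := (ENNReal.tendsto_toReal ENNReal.zero_ne_top).comp (vorm_G_tendsto hK hρ)
    rw [ENNReal.toReal_zero] at this
    exact this
  have h2 : Tendsto (fun ε : ℝ => 2 * ((pvP ε).real (vormG K₁ ρ)ᶜ + (pvP ε).real (vormG K₂ ρ)ᶜ)) (𝓝[>] 0) (𝓝 0) := by
    simpa using ((t b₁).add (t b₂)).const_mul 2
  exact squeeze_zero_norm (fun ε => by rw [Real.norm_eq_abs]; exact vorm_indep_err ε hρ m₁ m₂ hd c₁ c₂ (mA₁ ε) (mA₂ ε) (r₁ ε) (r₂ ε)) h2
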