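import Claimed.Agent.R289.Vor.Basic

/-!
# Row 289 (S0537), box VORDEL, file Vor/Cov : COVARIANCE AND MONOTONICITY OF THE TESSELLATION      (owner helper172; prefix `vorc_`, structure `VorSim`)

NOTE: `Vor/Basic` sec. 8 (helper135) has the covariance for the two concrete families `vorSim a b`, `vorCj`; this file has it for EVERY similarity (`ℂ ≃ᵢ ℂ`, `c • z`, compositions: the forms used by the
PPP box), bridges `vorc_sim_vorSim`, `vorc_sim_vorCj`, `vorc_cfMapPt`, and what is not there: C3 flip, C4 monotonicity, C5 coloured LOC, C6 topology.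
Deterministic.  TEX[Cardy:intro:geometry] (the law is invariant under the similarities of the plane; here: the OBJECTS are covariant).
* `VorSim g r` : `g : ℂ → ℂ` is a surjective similarity of ratio `r > 0` (`‖g z - g w‖ = r ‖z - w‖`).  Instances: `z ↦ a z + b`, `conj`, `z ↦ c • z`, `z ↦ z + a`, isometric equivalences, compositions, inverse.
* C1  covariance of every notion of `Vor/Basic` : `vorCell`, `vorUn`, `VorLF`, `VorDense`, `vorNbd`, `vorMeet`, `VorAdjIn`, `VorGP`; `vorDet` (`normSq a` for `a z + b`, sign change for `conj`, square for a general similarity)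
* C2  the same for coloured configurations in the form `Conf.image (Prod.map g id) η` (`= cfMap g η` of the PPP box, by `rfl`): `cfSites`, `cfCell`, `cfBlack`
* C3  colour flip `Conf.image (Prod.map id not) η` (`= cfFlip η`): same sites, same cells, black ∪ white = plane
* C4  annealed monotonicity: more black sites and fewer white sites ⟹ a larger black set (`vorc_black_mono`), insertion / deletion forms
* C5  LOC for coloured configurations: `cfBlack η ∩ K` is a function of `η` restricted to `K^{+ρ} × Bool` on the density event (`vorc_loc_black`)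
* C6  topology transported by a similarity: continuity, closed map, connected images, closure / frontier / interior of images.
-/

set_option autoImplicit false

namespace Claimed.Agent.R289

open Set Metric Claims.C0465

/-! ## 0. similarities -/

/-- a surjective similarity of ratio `r` -/
structure VorSim (g : ℂ → ℂ) (r : ℝ) : Prop where
  pos : 0 < r
  norm : ∀ z w, ‖g z - g w‖ = r * ‖z - w‖
  surj : Function.Surjective g

theorem VorSim.inj {g : ℂ → ℂ} {r : ℝ} (h : VorSim g r) : Function.Injective g := fun z w e => by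
  have h1 := h.norm z w
  rw [e, sub_self, norm_zero] at h1
  have h2 : ‖z - w‖ = 0 := by
    rcases mul_eq_zero.1 h1.symm with h3 | h3
    · exact absurd h3 h.pos.ne'
    · exact h3
  exact sub_eq_zero.1 (norm_eq_zero.1 h2)

theorem VorSim.bij {g : ℂ → ℂ} {r : ℝ} (h : VorSim g r) : Function.Bijective g := ⟨h.inj, h.surj⟩

theorem VorSim.le_iff {g : ℂ → ℂ} {r : ℝ} (h : VorSim g r) (z v u : ℂ) : ‖g z - g v‖ ≤ ‖g z - g u‖ ↔ ‖z - v‖ ≤ ‖z - u‖ := by
  rw [h.norm, h.norm]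
  exact mul_le_mul_iff_right₀ h.pos

theorem VorSim.eq_iff {g : ℂ → ℂ} {r : ℝ} (h : VorSim g r) (z v u : ℂ) : ‖g z - g v‖ = ‖g z - g u‖ ↔ ‖z - v‖ = ‖z - u‖ := by
  rw [h.norm, h.norm]
  exact mul_right_inj' h.pos.ne'

theorem VorSim.le_mul_iff {g : ℂ → ℂ} {r : ℝ} (h : VorSim g r) (z v : ℂ) (ρ : ℝ) : ‖g z - g v‖ ≤ r * ρ ↔ ‖z - v‖ ≤ ρ := by
  rw [h.norm]
  exact mul_le_mul_iff_right₀ h.pos

theorem VorSim.mem_image {g : ℂ → ℂ} {r : ℝ} (h : VorSim g r) (S : Set ℂ) (z : ℂ) : g z ∈ g '' S ↔ z ∈ S := h.inj.mem_set_image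

theorem vorc_sim_id : VorSim id 1 := ⟨one_pos, fun z w => by simp, Function.surjective_id⟩

theorem vorc_sim_affine (a b : ℂ) (ha : a ≠ 0) : VorSim (fun z => a * z + b) ‖a‖ :=
  ⟨norm_pos_iff.2 ha, fun z w => by rw [← norm_mul]; congr 1; ring, fun w => ⟨(w - b) / a, by field_simp; ring⟩⟩

theorem vorc_sim_mul (a : ℂ) (ha : a ≠ 0) : VorSim (fun z => a * z) ‖a‖ := by
  simpa using vorc_sim_affine a 0 ha

theorem vorc_sim_add (b : ℂ) : VorSim (fun z => z + b) 1 := by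
  simpa using vorc_sim_affine 1 b one_ne_zero

theorem vorc_sim_smul (c : ℝ) (hc : c ≠ 0) : VorSim (fun z : ℂ => c • z) |c| := by
  have := vorc_sim_mul (c : ℂ) (by exact_mod_cast hc)
  simpa [Complex.real_smul, Complex.norm_real] using this

theorem vorc_sim_conj : VorSim (starRingEnd ℂ) 1 :=
  ⟨one_pos, fun z w => by rw [← map_sub, Complex.norm_conj, one_mul], fun w => ⟨(starRingEnd ℂ) w, Complex.conj_conj w⟩⟩

/-- bridge to the vocabulary of `Vor/Basic` sec. 8 (helper135) -/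
theorem vorc_sim_vorSim (a b : ℂ) (ha : a ≠ 0) : VorSim (vorSim a b) ‖a‖ := vorc_sim_affine a b ha

theorem vorc_sim_vorCj : VorSim vorCj 1 := vorc_sim_conj

theorem vorc_cfMapPt (g : ℂ → ℂ) : cfMapPt g = Prod.map g id := rfl

theorem vorc_sim_isometry (g : ℂ ≃ᵢ ℂ) : VorSim g 1 :=
  ⟨one_pos, fun z w => by rw [← dist_eq_norm, g.dist_eq, dist_eq_norm, one_mul], g.surjective⟩

theorem VorSim.comp {g g' : ℂ → ℂ} {r r' : ℝ} (h : VorSim g r) (h' : VorSim g' r') : VorSim (g ∘ g') (r * r') :=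
  ⟨mul_pos h.pos h'.pos, fun z w => by simp only [Function.comp]; rw [h.norm, h'.norm, mul_assoc], h.surj.comp h'.surj⟩

/-- the inverse similarity -/
theorem VorSim.exists_inv {g : ℂ → ℂ} {r : ℝ} (h : VorSim g r) : ∃ g' : ℂ → ℂ, VorSim g' r⁻¹ ∧ (∀ z, g' (g z) = z) ∧ ∀ w, g (g' w) = w := by
  obtain ⟨g', hl, hr⟩ := Function.bijective_iff_has_inverse.1 h.bij
  refine ⟨g', ⟨inv_pos.2 h.pos, fun z w => ?_, fun z => ⟨g z, hl z⟩⟩, hl, hr⟩
  have := h.norm (g' z) (g' w)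
  rw [hr, hr] at this
  rw [this, ← mul_assoc, inv_mul_cancel₀ h.pos.ne', one_mul]

theorem VorSim.lipschitz {g : ℂ → ℂ} {r : ℝ} (h : VorSim g r) : LipschitzWith r.toNNReal g :=
  LipschitzWith.of_dist_le_mul fun z w => by
    rw [dist_eq_norm, dist_eq_norm, h.norm, Real.coe_toNNReal _ h.pos.le]

theorem VorSim.continuous {g : ℂ → ℂ} {r : ℝ} (h : VorSim g r) : Continuous g := h.lipschitz.continuous

/-- a similarity as a homeomorphism -/
theorem VorSim.exists_homeo {g : ℂ → ℂ} {r : ℝ} (h : VorSim g r) : ∃ φ : ℂ ≃ₜ ℂ, ⇑φ = g := by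
  obtain ⟨g', h', hl, hr⟩ := h.exists_inv
  exact ⟨⟨⟨g, g', hl, hr⟩, h.continuous, h'.continuous⟩, rfl⟩

/-! ## 1. C6: topology transported by a similarity -/

theorem VorSim.image_closure {g : ℂ → ℂ} {r : ℝ} (h : VorSim g r) (S : Set ℂ) : g '' closure S = closure (g '' S) := by
  obtain ⟨φ, rfl⟩ := h.exists_homeo
  exact φ.image_closure S

theorem VorSim.image_interior {g : ℂ → ℂ} {r : ℝ} (h : VorSim g r) (S : Set ℂ) : g '' interior S = interior (g '' S) := by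
  obtain ⟨φ, rfl⟩ := h.exists_homeo
  exact φ.image_interior S

theorem VorSim.image_frontier {g : ℂ → ℂ} {r : ℝ} (h : VorSim g r) (S : Set ℂ) : g '' frontier S = frontier (g '' S) := by
  obtain ⟨φ, rfl⟩ := h.exists_homeo
  exact φ.image_frontier S

theorem VorSim.isOpen_image {g : ℂ → ℂ} {r : ℝ} (h : VorSim g r) {S : Set ℂ} : IsOpen (g '' S) ↔ IsOpen S := by
  obtain ⟨φ, rfl⟩ := h.exists_homeo
  exact φ.isOpen_image

theorem VorSim.isClosed_image {g : ℂ → ℂ} {r : ℝ} (h : VorSim g r) {S : Set ℂ} : IsClosed (g '' S) ↔ IsClosed S := by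
  obtain ⟨φ, rfl⟩ := h.exists_homeo
  exact φ.isClosed_image

theorem VorSim.isConnected_image {g : ℂ → ℂ} {r : ℝ} (h : VorSim g r) {S : Set ℂ} : IsConnected (g '' S) ↔ IsConnected S := by
  obtain ⟨φ, rfl⟩ := h.exists_homeo
  exact φ.isConnected_image

theorem VorSim.isPreconnected_image {g : ℂ → ℂ} {r : ℝ} (h : VorSim g r) {S : Set ℂ} : IsPreconnected (g '' S) ↔ IsPreconnected S := by
  obtain ⟨φ, rfl⟩ := h.exists_homeo
  exact φ.isPreconnected_image

theorem VorSim.isCompact_image {g : ℂ → ℂ} {r : ℝ} (h : VorSim g r) {S : Set ℂ} : IsCompact (g '' S) ↔ IsCompact S := by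
  obtain ⟨φ, rfl⟩ := h.exists_homeo
  exact φ.isCompact_image

theorem VorSim.image_closedBall {g : ℂ → ℂ} {r : ℝ} (h : VorSim g r) (z : ℂ) (ρ : ℝ) : g '' closedBall z ρ = closedBall (g z) (r * ρ) := by
  ext w
  obtain ⟨w, rfl⟩ := h.surj w
  rw [h.mem_image, mem_closedBall, mem_closedBall, dist_eq_norm, dist_eq_norm, h.le_mul_iff]

theorem VorSim.image_ball {g : ℂ → ℂ} {r : ℝ} (h : VorSim g r) (z : ℂ) (ρ : ℝ) : g '' ball z ρ = ball (g z) (r * ρ) := by
  ext w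
  obtain ⟨w, rfl⟩ := h.surj w
  rw [h.mem_image, mem_ball, mem_ball, dist_eq_norm, dist_eq_norm, h.norm]
  exact (mul_lt_mul_iff_right₀ h.pos).symm

theorem VorSim.isBounded_image {g : ℂ → ℂ} {r : ℝ} (h : VorSim g r) {S : Set ℂ} : Bornology.IsBounded (g '' S) ↔ Bornology.IsBounded S := by
  constructor
  · intro hb
    obtain ⟨g', h', hl, _⟩ := h.exists_inv
    have : S = g' '' (g '' S) := by rw [← image_comp]; simp [hl]
    rw [this]
    exact h'.lipschitz.isBounded_image hb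
  · exact fun hb => h.lipschitz.isBounded_image hb

/-! ## 2. C1: covariance of the notions of `Vor/Basic` -/

theorem vorc_mem_cell {g : ℂ → ℂ} {r : ℝ} (h : VorSim g r) (Y : Set ℂ) (v z : ℂ) : g z ∈ vorCell (g '' Y) (g v) ↔ z ∈ vorCell Y v := by
  constructor
  · intro hz u hu
    exact (h.le_iff z v u).1 (hz _ ⟨u, hu, rfl⟩)
  · rintro hz _ ⟨u, hu, rfl⟩
    exact (h.le_iff z v u).2 (hz u hu)

theorem vorc_cell {g : ℂ → ℂ} {r : ℝ} (h : VorSim g r) (Y : Set ℂ) (v : ℂ) : vorCell (g '' Y) (g v) = g '' vorCell Y v := by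
  ext w
  obtain ⟨w, rfl⟩ := h.surj w
  rw [h.mem_image, vorc_mem_cell h]

theorem vorc_un {g : ℂ → ℂ} {r : ℝ} (h : VorSim g r) (Y A : Set ℂ) : vorUn (g '' Y) (g '' A) = g '' vorUn Y A := by
  ext w
  obtain ⟨w, rfl⟩ := h.surj w
  rw [h.mem_image]
  constructor
  · rintro ⟨_, ⟨v, hv, rfl⟩, hw⟩
    exact ⟨v, hv, (vorc_mem_cell h Y v w).1 hw⟩
  · rintro ⟨v, hv, hw⟩
    exact ⟨g v, ⟨v, hv, rfl⟩, (vorc_mem_cell h Y v w).2 hw⟩

theorem vorc_lf_image {g : ℂ → ℂ} {r : ℝ} (h : VorSim g r) {Y : Set ℂ} (hY : VorLF Y) : VorLF (g '' Y) := by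
  intro R
  obtain ⟨z0, hz0⟩ := h.surj 0
  have hfin := (hY.finite_ball z0 (r⁻¹ * R)).image g
  refine hfin.subset ?_
  rintro _ ⟨⟨u, hu, rfl⟩, hR⟩
  refine ⟨u, ⟨hu, ?_⟩, rfl⟩
  rw [mem_closedBall, dist_eq_norm] at hR ⊢
  rw [← hz0] at hR
  have e : R = r * (r⁻¹ * R) := by rw [← mul_assoc, mul_inv_cancel₀ h.pos.ne', one_mul]
  rw [e] at hR
  exact (h.le_mul_iff u z0 _).1 hR

theorem vorc_lf {g : ℂ → ℂ} {r : ℝ} (h : VorSim g r) {Y : Set ℂ} : VorLF (g '' Y) ↔ VorLF Y := by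
  refine ⟨fun hY => ?_, vorc_lf_image h⟩
  obtain ⟨g', h', hl, _⟩ := h.exists_inv
  have : Y = g' '' (g '' Y) := by rw [← image_comp]; simp [hl]
  rw [this]
  exact vorc_lf_image h' hY

theorem vorc_dense {g : ℂ → ℂ} {r : ℝ} (h : VorSim g r) {Y K : Set ℂ} {ρ : ℝ} : VorDense (g '' Y) (g '' K) (r * ρ) ↔ VorDense Y K ρ := by
  constructor
  · intro hd z hz
    obtain ⟨_, ⟨u, hu, rfl⟩, h1⟩ := hd (g z) ⟨z, hz, rfl⟩
    exact ⟨u, hu, (h.le_mul_iff z u ρ).1 h1⟩
  · rintro hd _ ⟨z, hz, rfl⟩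
    obtain ⟨u, hu, h1⟩ := hd z hz
    exact ⟨g u, ⟨u, hu, rfl⟩, (h.le_mul_iff z u ρ).2 h1⟩

theorem vorc_nbd {g : ℂ → ℂ} {r : ℝ} (h : VorSim g r) (K : Set ℂ) (ρ : ℝ) : vorNbd (g '' K) (r * ρ) = g '' vorNbd K ρ := by
  ext w
  obtain ⟨w, rfl⟩ := h.surj w
  rw [h.mem_image]
  constructor
  · rintro ⟨_, ⟨z, hz, rfl⟩, h1⟩
    exact ⟨z, hz, (h.le_mul_iff w z ρ).1 h1⟩
  · rintro ⟨z, hz, h1⟩
    exact ⟨g z, ⟨z, hz, rfl⟩, (h.le_mul_iff w z ρ).2 h1⟩

theorem vorc_mem_meet {g : ℂ → ℂ} {r : ℝ} (h : VorSim g r) (Y S : Set ℂ) (v : ℂ) : g v ∈ vorMeet (g '' Y) (g '' S) ↔ v ∈ vorMeet Y S := by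
  constructor
  · rintro ⟨hv, _, hz, ⟨z, hzS, rfl⟩⟩
    exact ⟨(h.mem_image Y v).1 hv, z, (vorc_mem_cell h Y v z).1 hz, hzS⟩
  · rintro ⟨hv, z, hz, hzS⟩
    exact ⟨⟨v, hv, rfl⟩, g z, (vorc_mem_cell h Y v z).2 hz, ⟨z, hzS, rfl⟩⟩

theorem vorc_meet {g : ℂ → ℂ} {r : ℝ} (h : VorSim g r) (Y S : Set ℂ) : vorMeet (g '' Y) (g '' S) = g '' vorMeet Y S := by
  ext w
  obtain ⟨w, rfl⟩ := h.surj w
  rw [h.mem_image, vorc_mem_meet h]

theorem vorc_adjIn {g : ℂ → ℂ} {r : ℝ} (h : VorSim g r) (Y S : Set ℂ) (a b : ℂ) : VorAdjIn (g '' Y) (g '' S) (g a) (g b) ↔ VorAdjIn Y S a b := by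
  constructor
  · rintro ⟨ha, hb, hab, _, ⟨hza, hzb⟩, ⟨z, hzS, rfl⟩⟩
    exact ⟨(h.mem_image Y a).1 ha, (h.mem_image Y b).1 hb, fun e => hab (by rw [e]), z, ⟨(vorc_mem_cell h Y a z).1 hza, (vorc_mem_cell h Y b z).1 hzb⟩, hzS⟩
  · rintro ⟨ha, hb, hab, z, ⟨hza, hzb⟩, hzS⟩
    exact ⟨⟨a, ha, rfl⟩, ⟨b, hb, rfl⟩, fun e => hab (h.inj e), g z, ⟨(vorc_mem_cell h Y a z).2 hza, (vorc_mem_cell h Y b z).2 hzb⟩, ⟨z, hzS, rfl⟩⟩

/-! ### the oriented area -/

theorem vorc_det_affine (a b z1 z2 z3 : ℂ) : vorDet (a * z1 + b) (a * z2 + b) (a * z3 + b) = Complex.normSq a * vorDet z1 z2 z3 := by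
  simp only [vorDet, Complex.add_re, Complex.add_im, Complex.mul_re, Complex.mul_im, Complex.normSq_apply]
  ring

theorem vorc_det_conj (z1 z2 z3 : ℂ) : vorDet ((starRingEnd ℂ) z1) ((starRingEnd ℂ) z2) ((starRingEnd ℂ) z3) = - vorDet z1 z2 z3 := by
  simp only [vorDet, Complex.conj_re, Complex.conj_im]
  ring

theorem vorc_det_cyc (a b c : ℂ) : vorDet b c a = vorDet a b c := by
  simp only [vorDet]; ring

theorem vorc_det_swap (a b c : ℂ) : vorDet b a c = - vorDet a b c := by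
  simp only [vorDet]; ring

/-- Heron: the square of the oriented area is a function of the three distances -/
theorem vorc_det_sq (a b c : ℂ) :
    4 * vorDet a b c ^ 2 = 4 * ‖b - a‖ ^ 2 * ‖c - a‖ ^ 2 - (‖b - a‖ ^ 2 + ‖c - a‖ ^ 2 - ‖c - b‖ ^ 2) ^ 2 := by
  simp only [Complex.sq_norm, Complex.normSq_apply, Complex.sub_re, Complex.sub_im, vorDet]
  ring

theorem vorc_det_sq_sim {g : ℂ → ℂ} {r : ℝ} (h : VorSim g r) (a b c : ℂ) : vorDet (g a) (g b) (g c) ^ 2 = (r ^ 2 * vorDet a b c) ^ 2 := by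
  have h1 := vorc_det_sq (g a) (g b) (g c)
  have h2 := vorc_det_sq a b c
  rw [h.norm, h.norm, h.norm] at h1
  have : 4 * vorDet (g a) (g b) (g c) ^ 2 = r ^ 4 * (4 * vorDet a b c ^ 2) := by rw [h1, h2]; ring
  nlinarith

theorem vorc_det_ne_zero {g : ℂ → ℂ} {r : ℝ} (h : VorSim g r) (a b c : ℂ) : vorDet (g a) (g b) (g c) ≠ 0 ↔ vorDet a b c ≠ 0 := by
  have h1 := vorc_det_sq_sim h a b c
  have hr : r ^ 2 ≠ 0 := pow_ne_zero 2 h.pos.ne'
  constructor
  · intro h2 h3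
    rw [h3, mul_zero] at h1
    exact h2 (by simpa using h1)
  · intro h2 h3
    rw [h3] at h1
    have : r ^ 2 * vorDet a b c = 0 := by
      have : (r ^ 2 * vorDet a b c) ^ 2 = 0 := by rw [← h1]; ring
      exact pow_eq_zero_iff (two_ne_zero) |>.1 this
    rcases mul_eq_zero.1 this with h4 | h4
    · exact hr h4
    · exact h2 h4

theorem vorc_gp_image {g : ℂ → ℂ} {r : ℝ} (h : VorSim g r) {Y : Set ℂ} (hY : VorGP Y) : VorGP (g '' Y) := by
  constructor
  · rintro _ ⟨a, ha, rfl⟩ _ ⟨b, hb, rfl⟩ _ ⟨c, hc, rfl⟩ hab hac hbc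
    exact (vorc_det_ne_zero h a b c).2 (hY.col a ha b hb c hc (fun e => hab (by rw [e])) (fun e => hac (by rw [e])) (fun e => hbc (by rw [e])))
  · rintro _ ⟨a, ha, rfl⟩ _ ⟨b, hb, rfl⟩ _ ⟨c, hc, rfl⟩ _ ⟨d, hd, rfl⟩ hab hac had hbc hbd hcd z
    obtain ⟨z, rfl⟩ := h.surj z
    rw [h.eq_iff, h.eq_iff, h.eq_iff]
    exact hY.cir a ha b hb c hc d hd (fun e => hab (by rw [e])) (fun e => hac (by rw [e])) (fun e => had (by rw [e])) (fun e => hbc (by rw [e]))
      (fun e => hbd (by rw [e])) (fun e => hcd (by rw [e])) z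

theorem vorc_gp {g : ℂ → ℂ} {r : ℝ} (h : VorSim g r) {Y : Set ℂ} : VorGP (g '' Y) ↔ VorGP Y := by
  refine ⟨fun hY => ?_, vorc_gp_image h⟩
  obtain ⟨g', h', hl, _⟩ := h.exists_inv
  have : Y = g' '' (g '' Y) := by rw [← image_comp]; simp [hl]
  rw [this]
  exact vorc_gp_image h' hY

theorem VorGP.mono {Y Y' : Set ℂ} (h : VorGP Y) (hs : Y' ⊆ Y) : VorGP Y' :=
  ⟨fun a ha b hb c hc => h.col a (hs ha) b (hs hb) c (hs hc), fun a ha b hb c hc d hd => h.cir a (hs ha) b (hs hb) c (hs hc) d (hs hd)⟩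

/-! ## 3. C2: coloured configurations.  `Conf.image (Prod.map g id) η` is `cfMap g η` of the PPP box -/

theorem vorc_sites_image (g : ℂ → ℂ) (η : Conf PvPt) : cfSites (Conf.image (Prod.map g id) η) = g '' cfSites η := by
  ext w
  simp only [cfSites, Conf.image, mem_image]
  constructor
  · rintro ⟨_, ⟨p, hp, rfl⟩, rfl⟩
    exact ⟨p.1, ⟨p, hp, rfl⟩, rfl⟩
  · rintro ⟨_, ⟨p, hp, rfl⟩, rfl⟩
    exact ⟨Prod.map g id p, ⟨p, hp, rfl⟩, rfl⟩

theorem vorc_col_image (g : ℂ → ℂ) (η : Conf PvPt) (c : Bool) :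
    {v | (v, c) ∈ (Conf.image (Prod.map g id) η).pts} = g '' {v | (v, c) ∈ η.pts} := by
  ext w
  simp only [Conf.image, mem_image, mem_ofPred_eq]
  constructor
  · rintro ⟨⟨v, c'⟩, hp, e⟩
    simp only [Prod.map_apply, id, Prod.mk.injEq] at e
    obtain ⟨rfl, rfl⟩ := e
    exact ⟨v, hp, rfl⟩
  · rintro ⟨v, hv, rfl⟩
    exact ⟨(v, c), hv, rfl⟩

theorem vorc_cfCell {g : ℂ → ℂ} {r : ℝ} (h : VorSim g r) (η : Conf PvPt) (v : ℂ) : cfCell (Conf.image (Prod.map g id) η) (g v) = g '' cfCell η v := by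
  rw [cfCell_eq_vor, cfCell_eq_vor, vorc_sites_image, vorc_cell h]

theorem vorc_cfBlack {g : ℂ → ℂ} {r : ℝ} (h : VorSim g r) (η : Conf PvPt) : cfBlack (Conf.image (Prod.map g id) η) = g '' cfBlack η := by
  rw [cfBlack_eq_vor, cfBlack_eq_vor, vorc_sites_image, vorc_col_image, vorc_un h]

/-! ## 4. C3: the colour flip.  `Conf.image (Prod.map id not) η` is `cfFlip η` of the PPP box -/

theorem vorc_sites_flip (η : Conf PvPt) : cfSites (Conf.image (Prod.map id not) η) = cfSites η := by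
  ext w
  simp only [cfSites, Conf.image, mem_image]
  constructor
  · rintro ⟨_, ⟨p, hp, rfl⟩, rfl⟩
    exact ⟨p, hp, rfl⟩
  · rintro ⟨p, hp, rfl⟩
    exact ⟨Prod.map id not p, ⟨p, hp, rfl⟩, rfl⟩

theorem vorc_col_flip (η : Conf PvPt) (c : Bool) : {v | (v, c) ∈ (Conf.image (Prod.map id not) η).pts} = {v | (v, !c) ∈ η.pts} := by
  ext w
  simp only [Conf.image, mem_image, mem_ofPred_eq]
  constructor
  · rintro ⟨⟨v, c'⟩, hp, e⟩
    simp only [Prod.map_apply, id, Prod.mk.injEq] at e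
    obtain ⟨rfl, rfl⟩ := e
    simpa using hp
  · intro hw
    exact ⟨(w, !c), hw, by simp⟩

theorem vorc_cfCell_flip (η : Conf PvPt) (v : ℂ) : cfCell (Conf.image (Prod.map id not) η) v = cfCell η v := by
  rw [cfCell_eq_vor, cfCell_eq_vor, vorc_sites_flip]

/-- the white set -/
theorem vorc_cfBlack_flip (η : Conf PvPt) : cfBlack (Conf.image (Prod.map id not) η) = vorUn (cfSites η) {v | (v, false) ∈ η.pts} := by
  rw [cfBlack_eq_vor, vorc_sites_flip, vorc_col_flip]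
  rfl

theorem vorc_flip_flip (η : Conf PvPt) : Conf.image (Prod.map id not) (Conf.image (Prod.map id not) η) = η := by
  have : (Conf.image (Prod.map id not) (Conf.image (Prod.map id not) η)).pts = η.pts := by
    simp only [Conf.image, ← image_comp]
    have : (Prod.map id not ∘ Prod.map id not : PvPt → PvPt) = id := by
      funext p; simp [Prod.map]
    rw [this, image_id]
  cases η
  simpa [Conf.image] using this

theorem vorc_sites_eq (η : Conf PvPt) : cfSites η = {v | (v, true) ∈ η.pts} ∪ {v | (v, false) ∈ η.pts} := by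
  ext w
  simp only [cfSites, mem_image, mem_union, mem_ofPred_eq]
  constructor
  · rintro ⟨⟨v, c⟩, hp, rfl⟩
    cases c
    · exact Or.inr hp
    · exact Or.inl hp
  · rintro (h | h)
    · exact ⟨_, h, rfl⟩
    · exact ⟨_, h, rfl⟩

/-- black and white cover the plane -/
theorem vorc_black_union_white {η : Conf PvPt} (h : VorLF (cfSites η)) (hne : (cfSites η).Nonempty) :
    cfBlack η ∪ cfBlack (Conf.image (Prod.map id not) η) = univ := by
  rw [eq_univ_iff_forall]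
  intro z
  obtain ⟨v, hv, hz⟩ := vor_cover h hne z
  rw [cfBlack_eq_vor, vorc_cfBlack_flip]
  rw [vorc_sites_eq] at hv
  rcases hv with hv | hv
  · exact Or.inl ⟨v, hv, hz⟩
  · exact Or.inr ⟨v, hv, hz⟩

theorem vorc_isClosed_black {η : Conf PvPt} (h : VorLF (cfSites η)) : IsClosed (cfBlack η) := by
  rw [cfBlack_eq_vor]
  exact vor_isClosed_un h fun v hv => ⟨(v, true), hv, rfl⟩

/-! ## 5. C4: annealed monotonicity -/

/-- site sets: more sites in `A` (the good colour), fewer sites outside ⟹ the union of the good cells grows -/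
theorem vorc_un_mono {Y Y' A A' : Set ℂ} (hlf : VorLF Y') (hA : A ⊆ A') (hA' : A' ⊆ Y') (hW : Y' \ A' ⊆ Y) : vorUn Y A ⊆ vorUn Y' A' := by
  rintro z ⟨p, hp, hz⟩
  obtain ⟨q, hq, hzq⟩ := vor_cover hlf ⟨p, hA' (hA hp)⟩ z
  by_cases hqA : q ∈ A'
  · exact ⟨q, hqA, hzq⟩
  · refine ⟨p, hA hp, fun u hu => ?_⟩
    exact (hz q (hW ⟨hq, hqA⟩)).trans (hzq u hu)

/-- **annealed monotonicity**: more black points, fewer white points ⟹ a larger black set -/
theorem vorc_black_mono {η η' : Conf PvPt} (hlf : VorLF (cfSites η')) (hB : ∀ v, (v, true) ∈ η.pts → (v, true) ∈ η'.pts)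
    (hW : ∀ v, (v, false) ∈ η'.pts → (v, false) ∈ η.pts) : cfBlack η ⊆ cfBlack η' := by
  rw [cfBlack_eq_vor, cfBlack_eq_vor]
  refine vorc_un_mono hlf hB (fun v hv => ⟨(v, true), hv, rfl⟩) ?_
  rintro v ⟨hv, hvB⟩
  rw [vorc_sites_eq] at hv
  rcases hv with hv | hv
  · exact absurd hv hvB
  · exact ⟨(v, false), hW v hv, rfl⟩

theorem vorc_sites_ins (p : PvPt) (η : Conf PvPt) : cfSites (Conf.ins p η) = insert p.1 (cfSites η) := by
  simp only [cfSites, Conf.ins, image_insert_eq]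

theorem vorc_lf_insert {Y : Set ℂ} (h : VorLF Y) (v : ℂ) : VorLF (insert v Y) := fun R =>
  ((h R).insert v).subset fun u hu => by
    rcases hu.1 with rfl | h1
    · exact mem_insert _ _
    · exact mem_insert_of_mem _ ⟨h1, hu.2⟩

/-- inserting a black point enlarges the black set -/
theorem vorc_black_ins {η : Conf PvPt} (hlf : VorLF (cfSites η)) (v : ℂ) : cfBlack η ⊆ cfBlack (Conf.ins (v, true) η) := by
  refine vorc_black_mono (by rw [vorc_sites_ins]; exact vorc_lf_insert hlf v) (fun u hu => mem_insert_of_mem _ hu) fun u hu => ?_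
  rcases hu with h1 | h1
  · simp at h1
  · exact h1

/-- inserting a white point shrinks the black set -/
theorem vorc_black_ins_white {η : Conf PvPt} (hlf : VorLF (cfSites η)) (v : ℂ) : cfBlack (Conf.ins (v, false) η) ⊆ cfBlack η := by
  refine vorc_black_mono hlf (fun u hu => ?_) fun u hu => mem_insert_of_mem _ hu
  rcases hu with h1 | h1
  · simp at h1
  · exact h1

/-! ## 6. C5: LOC for coloured configurations -/

theorem vorc_sites_restr (η : Conf PvPt) (O : Set ℂ) : cfSites (Conf.restr (O ×ˢ univ) η) = cfSites η ∩ O := by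
  ext w
  simp only [cfSites, Conf.restr, mem_image, mem_inter_iff, mem_prod, mem_univ, and_true]
  constructor
  · rintro ⟨p, ⟨hp, hO⟩, rfl⟩
    exact ⟨⟨p, hp, rfl⟩, hO⟩
  · rintro ⟨⟨p, hp, rfl⟩, hO⟩
    exact ⟨p, ⟨hp, hO⟩, rfl⟩

theorem vorc_col_restr (η : Conf PvPt) (O : Set ℂ) (c : Bool) : {v | (v, c) ∈ (Conf.restr (O ×ˢ univ) η).pts} = {v | (v, c) ∈ η.pts} ∩ O := by
  ext w
  simp only [Conf.restr, mem_inter_iff, mem_prod, mem_univ, and_true, mem_ofPred_eq]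

/-- **LOC**: on the density event the black set inside `K` is a function of the configuration in the `ρ`-neighbourhood of `K` -/
theorem vorc_loc_black {η η' : Conf PvPt} {K : Set ℂ} {ρ : ℝ} (hd : VorDense (cfSites η) K ρ)
    (hr : Conf.restr (vorNbd K ρ ×ˢ univ) η = Conf.restr (vorNbd K ρ ×ˢ univ) η') : cfBlack η ∩ K = cfBlack η' ∩ K := by
  rw [cfBlack_eq_vor, cfBlack_eq_vor]
  refine vor_loc_un hd ?_ (fun v hv => ⟨(v, true), hv, rfl⟩) (fun v hv => ⟨(v, true), hv, rfl⟩) ?_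
  · rw [← vorc_sites_restr, ← vorc_sites_restr, hr]
  · rw [← vorc_col_restr, ← vorc_col_restr, hr]

/-- the density event itself is local -/
theorem vorc_loc_dense {η η' : Conf PvPt} {K : Set ℂ} {ρ : ℝ} (hd : VorDense (cfSites η) K ρ)
    (hr : Conf.restr (vorNbd K ρ ×ˢ univ) η = Conf.restr (vorNbd K ρ ×ˢ univ) η') : VorDense (cfSites η') K ρ :=
  vor_dense_transfer hd (by rw [← vorc_sites_restr, ← vorc_sites_restr, hr])

/-- LOC for the cells -/
theorem vorc_loc_cell {η η' : Conf PvPt} {K : Set ℂ} {ρ : ℝ} (hd : VorDense (cfSites η) K ρ)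
    (hr : Conf.restr (vorNbd K ρ ×ˢ univ) η = Conf.restr (vorNbd K ρ ×ˢ univ) η') {z : ℂ} (hz : z ∈ K) (p : PvPt) :
    (p ∈ η.pts ∧ z ∈ cfCell η p.1) ↔ (p ∈ η'.pts ∧ z ∈ cfCell η' p.1) := by
  have key : ∀ {η η' : Conf PvPt}, VorDense (cfSites η) K ρ → Conf.restr (vorNbd K ρ ×ˢ univ) η = Conf.restr (vorNbd K ρ ×ˢ univ) η' →
      (p ∈ η.pts ∧ z ∈ cfCell η p.1) → (p ∈ η'.pts ∧ z ∈ cfCell η' p.1) := by
    rintro η η' hd hr ⟨hp, hzc⟩
    rw [cfCell_eq_vor] at hzc ⊢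
    have hYY : cfSites η ∩ vorNbd K ρ = cfSites η' ∩ vorNbd K ρ := by rw [← vorc_sites_restr, ← vorc_sites_restr, hr]
    have h1 := vor_site_near hd hzc hz
    refine ⟨?_, (vor_loc_aux hd hYY hz ⟨⟨p, hp, rfl⟩, hzc⟩).2⟩
    have : p ∈ (Conf.restr (vorNbd K ρ ×ˢ univ) η).pts := ⟨hp, ⟨z, hz, by rw [norm_sub_rev]; exact h1⟩, mem_univ _⟩
    rw [hr] at this
    exact this.1
  exact ⟨key hd hr, key (vorc_loc_dense hd hr) hr.symm⟩

end Claimed.Agent.R289
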