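import Claimed.Agent.R289.Del.Main
import Claimed.Agent.R289.Del.GenPos
import Claimed.Agent.R289.Rsw.Topo
import Claimed.Agent.R289.Vor.Cov
import Claimed.Agent.R289.Defs.Top

/-!
# Row 289 (S0537), box VORDEL, file Vor/Chain : THE BLACK-CHAIN BRIDGE AND THE MEASURABILITY KIT      (owner helper172; post of helper219; prefix `vorch_`)

ONE kit for RSW-II (`pv_conn_meas`), END / EXT (vertex chain ⟹ strict path) and S8 (`PvVC` events).   No `FinMeas`, no localisation, no closed projections.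
* K1  `vorch_meet_iff` (deterministic, ANY site set `Y`): for `F` compact and `F0 ⊆ F` dense,
      `(vorCell Y a ∩ vorCell Y b ∩ F).Nonempty ↔ ∀ n, ∃ z ∈ F0, ∀ u ∈ Y, ‖z-a‖ ≤ ‖z-u‖ + 1/(n+1) ∧ ‖z-b‖ ≤ ‖z-u‖ + 1/(n+1)`
* K2  on the frozen sample space, indices `i j : DelgpIx` (vocabulary of helper120, `Del/GenPos`): `{ω | the cells of the sites i, j meet inside F}` is measurable, `F` compact or sigma-compact (`vorch_meas_meet`, `vorch_meas_meet_sigma`)
* K3  `vorch_meas_rtg` : `ι` countable, `{ω | R ω i j}` measurable ⟹ `{ω | ReflTransGen (R ω) i j}` measurable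
* K4  `vorch_joined_iff`, `vorch_holds_iff` : `Y` locally finite, `K` convex: a path in `vorUn Y A ∩ K` = a finite chain of cells of `A` meeting consecutively inside `K`;   index form `vorch_holds_ix`
* K5  `vorch_meas_holds` (`PVSample`), `vorch_meas_holds_conf` (`Conf PvPt`, the form consumed by `pv_fkg_ev'`), both colours, lists, null-measurability   (for the MONOTONE region `pvrmB` see `pv_conn_meas`, helper238, Rsw/VerMeas)
* K6  `vorch_vc_iff`, `vorch_meas_vc` : the vertex crossing events `PvVC` of `Defs/Top` in index form; they are measurable on `PVSample` (no LF, no GP);   `vorch_vc_connected` : a vertex crossing carries a connected black set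
STRICT paths from chains: `Del/Strict.lean` (helper285), `pvrb_chain` (helper54).
-/

set_option autoImplicit false

namespace Claimed.Agent.R289

open Set Metric MeasureTheory Filter Topology Claims.C0465

/-! ## 1. K1: cells meeting inside a compact set, with slack -/

theorem vorch_meet_iff {Y F F0 : Set ℂ} (hF : IsCompact F) (h0 : F0 ⊆ F) (hd : F ⊆ closure F0) (a b : ℂ) :
    (vorCell Y a ∩ vorCell Y b ∩ F).Nonempty ↔
      ∀ n : ℕ, ∃ z ∈ F0, ∀ u ∈ Y, ‖z - a‖ ≤ ‖z - u‖ + 1 / ((n : ℝ) + 1) ∧ ‖z - b‖ ≤ ‖z - u‖ + 1 / ((n : ℝ) + 1) := by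
  constructor
  · rintro ⟨z, ⟨hza, hzb⟩, hzF⟩ n
    have hpos : (0 : ℝ) < 1 / ((n : ℝ) + 1) / 2 := by positivity
    obtain ⟨w, hw, hwz⟩ := Metric.mem_closure_iff.1 (hd hzF) _ hpos
    refine ⟨w, hw, fun u hu => ?_⟩
    rw [dist_eq_norm] at hwz
    have t1 : ∀ c : ℂ, ‖w - c‖ ≤ ‖z - c‖ + ‖z - w‖ := fun c => by
      calc ‖w - c‖ = ‖(z - c) - (z - w)‖ := by ring_nf
        _ ≤ _ := norm_sub_le _ _
    have t2 : ‖z - u‖ ≤ ‖w - u‖ + ‖z - w‖ := by
      calc ‖z - u‖ = ‖(w - u) + (z - w)‖ := by ring_nf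
        _ ≤ _ := norm_add_le _ _
    constructor
    · linarith [t1 a, hza u hu]
    · linarith [t1 b, hzb u hu]
  · intro h
    choose x hx0 hx using h
    obtain ⟨z, hzF, φ, hφ, hlim⟩ := hF.tendsto_subseq (fun n => h0 (hx0 n))
    have hε : Tendsto (fun n => 1 / (((φ n : ℕ) : ℝ) + 1)) atTop (𝓝 0) :=
      tendsto_one_div_add_atTop_nhds_zero_nat.comp hφ.tendsto_atTop
    have key : ∀ c u : ℂ, (∀ n, ‖x n - c‖ ≤ ‖x n - u‖ + 1 / ((n : ℝ) + 1)) → ‖z - c‖ ≤ ‖z - u‖ := fun c u hcu => by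
      have l1 : Tendsto (fun n => ‖x (φ n) - c‖) atTop (𝓝 ‖z - c‖) := (hlim.sub_const c).norm
      have l2 : Tendsto (fun n => ‖x (φ n) - u‖ + 1 / (((φ n : ℕ) : ℝ) + 1)) atTop (𝓝 (‖z - u‖ + 0)) := ((hlim.sub_const u).norm).add hε
      rw [add_zero] at l2
      exact le_of_tendsto_of_tendsto' l1 l2 fun n => hcu (φ n)
    exact ⟨z, ⟨fun u hu => key a u fun n => (hx n u hu).1, fun u hu => key b u fun n => (hx n u hu).2⟩, hzF⟩

/-! ## 2. K2: the meeting events on the frozen sample space -/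

theorem vorch_sites (ω : PVSample) : cfSites (pvConf ω) = {v | ∃ i : DelgpIx, i.2 < ω.1 i.1 ∧ v = delgpW ω i} := by
  ext v
  simp only [cfSites, mem_image, mem_ofPred_eq]
  constructor
  · rintro ⟨p, hp, rfl⟩
    obtain ⟨i, hi, rfl⟩ := delgp_mem_conf.1 hp
    exact ⟨i, hi, rfl⟩
  · rintro ⟨i, hi, rfl⟩
    exact ⟨_, delgp_mem_conf.2 ⟨i, hi, rfl⟩, rfl⟩

theorem vorch_col (ω : PVSample) (c : Bool) :
    {v | (v, c) ∈ (pvConf ω).pts} = {v | ∃ i : DelgpIx, i.2 < ω.1 i.1 ∧ (ω.2 i).2 = c ∧ v = delgpW ω i} := by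
  ext v
  simp only [mem_ofPred_eq]
  constructor
  · intro hp
    obtain ⟨i, hi, e⟩ := delgp_mem_conf.1 hp
    simp only [Prod.mk.injEq] at e
    exact ⟨i, hi, e.2.symm, e.1⟩
  · rintro ⟨i, hi, rfl, rfl⟩
    exact delgp_mem_conf.2 ⟨i, hi, rfl⟩

theorem vorch_meas_act (i : DelgpIx) : Measurable fun ω : PVSample => i.2 < ω.1 i.1 :=
  measurableSet_setOfPred.1 (measurableSet_lt measurable_const ((measurable_pi_apply i.1).comp measurable_fst))

theorem vorch_meas_colour (i : DelgpIx) (c : Bool) : Measurable fun ω : PVSample => (ω.2 i).2 = c :=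
  measurableSet_setOfPred.1 (measurableSet_eq_fun (measurable_snd.comp ((measurable_pi_apply i).comp measurable_snd)) measurable_const)

theorem vorch_meas_mem {W : Set ℂ} (hW : MeasurableSet W) (i : DelgpIx) : Measurable fun ω : PVSample => delgpW ω i ∈ W :=
  measurableSet_setOfPred.1 (delgp_measurable_W i hW)

/-- the cells of the sites `i`, `j` meet inside the compact set `F` -/
theorem vorch_meas_meet {F : Set ℂ} (hF : IsCompact F) (i j : DelgpIx) :
    Measurable fun ω : PVSample => (vorCell (cfSites (pvConf ω)) (delgpW ω i) ∩ vorCell (cfSites (pvConf ω)) (delgpW ω j) ∩ F).Nonempty := by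
  obtain ⟨F0, h0, hc, hd⟩ := hF.isSeparable.exists_countable_dense_subset
  have e : (fun ω : PVSample => (vorCell (cfSites (pvConf ω)) (delgpW ω i) ∩ vorCell (cfSites (pvConf ω)) (delgpW ω j) ∩ F).Nonempty)
      = fun ω => ∀ n : ℕ, ∃ z : F0, ∀ l : DelgpIx, l.2 < ω.1 l.1 →
        (‖(z : ℂ) - delgpW ω i‖ ≤ ‖(z : ℂ) - delgpW ω l‖ + 1 / ((n : ℝ) + 1) ∧ ‖(z : ℂ) - delgpW ω j‖ ≤ ‖(z : ℂ) - delgpW ω l‖ + 1 / ((n : ℝ) + 1)) := by
    funext ω
    rw [vorch_meet_iff hF h0 hd, vorch_sites]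
    apply propext
    refine forall_congr' fun n => ?_
    constructor
    · rintro ⟨z, hz, h⟩
      exact ⟨⟨z, hz⟩, fun l hl => h _ ⟨l, hl, rfl⟩⟩
    · rintro ⟨⟨z, hz⟩, h⟩
      refine ⟨z, hz, ?_⟩
      rintro _ ⟨l, hl, rfl⟩
      exact h l hl
  rw [e]
  have : Countable F0 := hc.to_subtype
  have hle : ∀ (z : ℂ) (n : ℕ) (i l : DelgpIx), Measurable fun ω : PVSample => ‖z - delgpW ω i‖ ≤ ‖z - delgpW ω l‖ + 1 / ((n : ℝ) + 1) := fun z n i l =>
    measurableSet_setOfPred.1 (measurableSet_le (measurable_const.sub (delgp_measurable_W i)).norm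
      ((measurable_const.sub (delgp_measurable_W l)).norm.add measurable_const))
  exact Measurable.forall fun n => Measurable.exists fun z => Measurable.forall fun l => (vorch_meas_act l).imp ((hle z n i l).and (hle z n j l))

/-- the same for a sigma-compact set -/
theorem vorch_meas_meet_sigma {F : Set ℂ} (hF : IsSigmaCompact F) (i j : DelgpIx) :
    Measurable fun ω : PVSample => (vorCell (cfSites (pvConf ω)) (delgpW ω i) ∩ vorCell (cfSites (pvConf ω)) (delgpW ω j) ∩ F).Nonempty := by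
  obtain ⟨K, hK, rfl⟩ := hF
  have e : (fun ω : PVSample => (vorCell (cfSites (pvConf ω)) (delgpW ω i) ∩ vorCell (cfSites (pvConf ω)) (delgpW ω j) ∩ ⋃ n, K n).Nonempty)
      = fun ω => ∃ n : ℕ, (vorCell (cfSites (pvConf ω)) (delgpW ω i) ∩ vorCell (cfSites (pvConf ω)) (delgpW ω j) ∩ K n).Nonempty := by
    funext ω
    apply propext
    constructor
    · rintro ⟨z, hz, hzK⟩
      obtain ⟨n, hn⟩ := mem_iUnion.1 hzK
      exact ⟨n, z, hz, hn⟩
    · rintro ⟨n, z, hz, hn⟩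
      exact ⟨z, hz, mem_iUnion.2 ⟨n, hn⟩⟩
  rw [e]
  exact Measurable.exists fun n => vorch_meas_meet (hK n) i j

/-- one cell meets a sigma-compact set -/
theorem vorch_meas_meet_one {F : Set ℂ} (hF : IsSigmaCompact F) (i : DelgpIx) :
    Measurable fun ω : PVSample => (vorCell (cfSites (pvConf ω)) (delgpW ω i) ∩ F).Nonempty := by
  simpa only [inter_self] using vorch_meas_meet_sigma hF i i

/-! ## 3. K3: reachability is measurable -/

theorem vorch_meas_rtg {Ω ι : Type*} [MeasurableSpace Ω] [Countable ι] {R : Ω → ι → ι → Prop} (hR : ∀ i j, Measurable fun ω => R ω i j) (i j : ι) :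
    Measurable fun ω => Relation.ReflTransGen (R ω) i j := by
  let E : ℕ → ι → Ω → Prop := fun n => Nat.rec (fun j _ => i = j) (fun _ ih j ω => ∃ k, ih k ω ∧ R ω k j) n
  have hE0 : ∀ j ω, E 0 j ω = (i = j) := fun _ _ => rfl
  have hES : ∀ n j ω, E (n + 1) j ω = ∃ k, E n k ω ∧ R ω k j := fun _ _ _ => rfl
  have hm : ∀ n j, Measurable (E n j) := by
    intro n
    induction n with
    | zero => intro j; exact measurable_const
    | succ n ih =>
      intro j
      have : E (n + 1) j = fun ω => ∃ k, E n k ω ∧ R ω k j := funext fun ω => hES n j ω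
      rw [this]
      exact Measurable.exists fun k => (ih k).and (hR k j)
  have e : (fun ω => Relation.ReflTransGen (R ω) i j) = fun ω => ∃ n, E n j ω := by
    funext ω
    apply propext
    constructor
    · intro h
      induction h with
      | refl => exact ⟨0, rfl⟩
      | tail _ hbc ih =>
        obtain ⟨n, hn⟩ := ih
        exact ⟨n + 1, _, hn, hbc⟩
    · rintro ⟨n, hn⟩
      induction n generalizing j with
      | zero =>
        rw [hE0] at hn
        subst hn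
        exact Relation.ReflTransGen.refl
      | succ n ih =>
        rw [hES] at hn
        obtain ⟨k, hk, hkj⟩ := hn
        exact (ih k hk).tail hkj
  rw [e]
  exact Measurable.exists fun n => hm n j

/-! ## 4. K4: paths in a union of cells inside a convex window are chains -/

/-- the chain relation: two cells of `A` meeting inside `K` -/
def VorchR (Y A K : Set ℂ) (v w : ℂ) : Prop := v ∈ A ∧ w ∈ A ∧ (vorCell Y v ∩ vorCell Y w ∩ K).Nonempty

theorem vorch_eqns_cite : True := by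
  have := @VorchR.eq_1
  trivial

theorem vorch_piece {Y A K : Set ℂ} (hK : Convex ℝ K) {v p q : ℂ} (hv : v ∈ A) (hp : p ∈ vorCell Y v ∩ K) (hq : q ∈ vorCell Y v ∩ K) :
    JoinedIn (vorUn Y A ∩ K) p q := by
  have hc : Convex ℝ (vorCell Y v ∩ K) := (vor_convex_cell Y v).inter hK
  refine JoinedIn.of_segment_subset ((hc.segment_subset hp hq).trans ?_)
  exact fun z hz => ⟨⟨v, hv, hz.1⟩, hz.2⟩

theorem vorch_joined_of_chain {Y A K : Set ℂ} (hK : Convex ℝ K) {a b : ℂ} (ha : a ∈ A) (h : Relation.ReflTransGen (VorchR Y A K) a b) :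
    b ∈ A ∧ ∀ x ∈ vorCell Y a ∩ K, ∀ y ∈ vorCell Y b ∩ K, JoinedIn (vorUn Y A ∩ K) x y := by
  induction h with
  | refl => exact ⟨ha, fun x hx y hy => vorch_piece hK ha hx hy⟩
  | tail _ hbc ih =>
    obtain ⟨hb, hc, z, ⟨hzb, hzc⟩, hzK⟩ := hbc
    exact ⟨hc, fun x hx y hy => (ih.2 x hx z ⟨hzb, hzK⟩).trans (vorch_piece hK hc ⟨hzc, hzK⟩ hy)⟩

/-- a preconnected subset of `vorUn Y A ∩ K` (any `K`) gives a chain -/
theorem vorch_chain_of_preconnected {Y A K S : Set ℂ} (lf : VorLF Y) (hA : A ⊆ Y) (hS : IsPreconnected S) (hSA : S ⊆ vorUn Y A ∩ K) {x y : ℂ}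
    (hx : x ∈ S) (hy : y ∈ S) : ∃ a ∈ A, ∃ b ∈ A, x ∈ vorCell Y a ∩ K ∧ y ∈ vorCell Y b ∩ K ∧ Relation.ReflTransGen (VorchR Y A K) a b := by
  obtain ⟨a, ha, hxa⟩ := (hSA hx).1
  obtain ⟨b, hb, hyb⟩ := (hSA hy).1
  refine ⟨a, ha, b, hb, ⟨hxa, (hSA hx).2⟩, ⟨hyb, (hSA hy).2⟩, ?_⟩
  refine Relation.ReflTransGen.mono ?_ _ _ (vor_block_connected_in lf hA hS (fun z hz => (hSA hz).1) ha ⟨x, hxa, hx⟩ hb ⟨y, hyb, hy⟩)
  rintro v w ⟨hv, hw, z, hz, hzS⟩
  exact ⟨hv, hw, z, hz, (hSA hzS).2⟩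

/-- **K4** -/
theorem vorch_joined_iff {Y A K : Set ℂ} (lf : VorLF Y) (hA : A ⊆ Y) (hK : Convex ℝ K) {x y : ℂ} :
    JoinedIn (vorUn Y A ∩ K) x y ↔
      ∃ a ∈ A, ∃ b ∈ A, x ∈ vorCell Y a ∩ K ∧ y ∈ vorCell Y b ∩ K ∧ Relation.ReflTransGen (VorchR Y A K) a b := by
  constructor
  · rintro ⟨γ, hγ⟩
    refine vorch_chain_of_preconnected lf hA (isPreconnected_range γ.continuous) ?_ ⟨0, γ.source⟩ ⟨1, γ.target⟩
    rintro _ ⟨t, rfl⟩
    exact hγ t
  · rintro ⟨a, ha, b, _, hx, hy, h⟩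
    exact (vorch_joined_of_chain hK ha h).2 x hx y hy

/-- in a convex window connected sets and paths give the same connection events -/
theorem vorch_joined_of_preconnected {Y A K S : Set ℂ} (lf : VorLF Y) (hA : A ⊆ Y) (hK : Convex ℝ K) (hS : IsPreconnected S) (hSA : S ⊆ vorUn Y A ∩ K)
    {x y : ℂ} (hx : x ∈ S) (hy : y ∈ S) : JoinedIn (vorUn Y A ∩ K) x y :=
  (vorch_joined_iff lf hA hK).2 (vorch_chain_of_preconnected lf hA hS hSA hx hy)

/-- the pattern events of RSW in chain form -/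
theorem vorch_holds_iff {Y A : Set ℂ} (lf : VorLF Y) (hA : A ⊆ Y) {e : RswTri} (hK : Convex ℝ e.K) :
    e.Holds (vorUn Y A) ↔ ∃ a b : ℂ, a ∈ A ∧ (vorCell Y a ∩ (e.S ∩ e.K)).Nonempty ∧ (vorCell Y b ∩ (e.T ∩ e.K)).Nonempty ∧
      Relation.ReflTransGen (VorchR Y A e.K) a b := by
  constructor
  · rintro ⟨x, hx, y, hy, h⟩
    obtain ⟨a, ha, b, _, hxa, hyb, hch⟩ := (vorch_joined_iff lf hA hK).1 h
    exact ⟨a, b, ha, ⟨x, hxa.1, hx, hxa.2⟩, ⟨y, hyb.1, hy, hyb.2⟩, hch⟩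
  · rintro ⟨a, b, ha, ⟨x, hxa, hx, hxK⟩, ⟨y, hyb, hy, hyK⟩, hch⟩
    exact ⟨x, hx, y, hy, (vorch_joined_of_chain hK ha hch).2 x ⟨hxa, hxK⟩ y ⟨hyb, hyK⟩⟩

/-! ### index form -/

/-- the chain relation on the indices of a sample: active indices of colour `c` whose cells meet inside `K` -/
def VorchRx (c : Bool) (K : Set ℂ) (ω : PVSample) (i j : DelgpIx) : Prop :=
  (i.2 < ω.1 i.1 ∧ (ω.2 i).2 = c) ∧ (j.2 < ω.1 j.1 ∧ (ω.2 j).2 = c) ∧
    (vorCell (cfSites (pvConf ω)) (delgpW ω i) ∩ vorCell (cfSites (pvConf ω)) (delgpW ω j) ∩ K).Nonempty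

theorem vorch_eqns_cite2 : True := by
  have := @VorchRx.eq_1
  trivial

theorem vorch_rx_lift (c : Bool) (K : Set ℂ) (ω : PVSample) {i j : DelgpIx} (h : Relation.ReflTransGen (VorchRx c K ω) i j) :
    Relation.ReflTransGen (VorchR (cfSites (pvConf ω)) {v | (v, c) ∈ (pvConf ω).pts} K) (delgpW ω i) (delgpW ω j) := by
  refine Relation.ReflTransGen.lift (delgpW ω) ?_ _ _ h
  rintro a b ⟨⟨ha, hac⟩, ⟨hb, hbc⟩, hm⟩
  refine ⟨?_, ?_, hm⟩
  · rw [vorch_col]; exact ⟨a, ha, hac, rfl⟩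
  · rw [vorch_col]; exact ⟨b, hb, hbc, rfl⟩

theorem vorch_rx_of_sites (c : Bool) (K : Set ℂ) (ω : PVSample) {i : DelgpIx} (hi : i.2 < ω.1 i.1 ∧ (ω.2 i).2 = c) {b : ℂ}
    (h : Relation.ReflTransGen (VorchR (cfSites (pvConf ω)) {v | (v, c) ∈ (pvConf ω).pts} K) (delgpW ω i) b) :
    ∃ j : DelgpIx, (j.2 < ω.1 j.1 ∧ (ω.2 j).2 = c) ∧ b = delgpW ω j ∧ Relation.ReflTransGen (VorchRx c K ω) i j := by
  induction h with
  | refl => exact ⟨i, hi, rfl, Relation.ReflTransGen.refl⟩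
  | tail _ hbc ih =>
    obtain ⟨j, hj, rfl, hij⟩ := ih
    obtain ⟨_, hw, hm⟩ := hbc
    rw [vorch_col] at hw
    obtain ⟨l, hl, hcl, rfl⟩ := hw
    exact ⟨l, ⟨hl, hcl⟩, rfl, hij.tail ⟨hj, ⟨hl, hcl⟩, hm⟩⟩

/-- **K4, index form**: the pattern event for the colour `c` on a locally finite sample -/
theorem vorch_holds_ix (c : Bool) (ω : PVSample) (lf : VorLF (cfSites (pvConf ω))) {e : RswTri} (hK : Convex ℝ e.K) :
    e.Holds (vorUn (cfSites (pvConf ω)) {v | (v, c) ∈ (pvConf ω).pts}) ↔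
      ∃ i j : DelgpIx, (i.2 < ω.1 i.1 ∧ (ω.2 i).2 = c) ∧ (vorCell (cfSites (pvConf ω)) (delgpW ω i) ∩ (e.S ∩ e.K)).Nonempty ∧
        (vorCell (cfSites (pvConf ω)) (delgpW ω j) ∩ (e.T ∩ e.K)).Nonempty ∧ Relation.ReflTransGen (VorchRx c e.K ω) i j := by
  have hA : {v | (v, c) ∈ (pvConf ω).pts} ⊆ cfSites (pvConf ω) := fun v hv => ⟨(v, c), hv, rfl⟩
  rw [vorch_holds_iff lf hA hK]
  constructor
  · rintro ⟨a, b, ha, hS, hT, hch⟩
    rw [vorch_col] at ha
    obtain ⟨i, hi, hc, rfl⟩ := ha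
    obtain ⟨j, _, rfl, hij⟩ := vorch_rx_of_sites c e.K ω ⟨hi, hc⟩ hch
    exact ⟨i, j, ⟨hi, hc⟩, hS, hT, hij⟩
  · rintro ⟨i, j, hi, hS, hT, hij⟩
    refine ⟨delgpW ω i, delgpW ω j, ?_, hS, hT, vorch_rx_lift c e.K ω hij⟩
    rw [vorch_col]
    exact ⟨i, hi.1, hi.2, rfl⟩

/-! ## 5. K5: the connection events are measurable -/

theorem vorch_meas_rx (c : Bool) {K : Set ℂ} (hK : IsSigmaCompact K) (i j : DelgpIx) : Measurable fun ω : PVSample => VorchRx c K ω i j :=
  ((vorch_meas_act i).and (vorch_meas_colour i c)).and (((vorch_meas_act j).and (vorch_meas_colour j c)).and (vorch_meas_meet_sigma hK i j))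

theorem vorch_sigma_inter {S K : Set ℂ} (hS : IsCompact S) (hK : IsSigmaCompact K) : IsSigmaCompact (S ∩ K) := by
  obtain ⟨L, hL, rfl⟩ := hK
  refine ⟨fun n => S ∩ L n, fun n => hS.inter (hL n), ?_⟩
  rw [inter_iUnion]

theorem vorch_meas_lf : MeasurableSet {ω : PVSample | PvLF (pvConf ω)} := measurable_pvConf pvcn_LF_meas

/-- the chain event (right side of `vorch_holds_ix`) is measurable, no local finiteness needed -/
theorem vorch_meas_chain (c : Bool) {e : RswTri} (he : e.Nice) : Measurable fun ω : PVSample =>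
    ∃ i j : DelgpIx, (i.2 < ω.1 i.1 ∧ (ω.2 i).2 = c) ∧ (vorCell (cfSites (pvConf ω)) (delgpW ω i) ∩ (e.S ∩ e.K)).Nonempty ∧
      (vorCell (cfSites (pvConf ω)) (delgpW ω j) ∩ (e.T ∩ e.K)).Nonempty ∧ Relation.ReflTransGen (VorchRx c e.K ω) i j := by
  obtain ⟨_, hK, hS, hT⟩ := he
  exact Measurable.exists fun i => Measurable.exists fun j => ((vorch_meas_act i).and (vorch_meas_colour i c)).and
    ((vorch_meas_meet_one (vorch_sigma_inter hS hK) i).and ((vorch_meas_meet_one (vorch_sigma_inter hT hK) j).and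
      (vorch_meas_rtg (fun i j => vorch_meas_rx c hK i j) i j)))

/-- **K5 on the frozen sample space**, colour `c` -/
theorem vorch_meas_holds_col (c : Bool) {e : RswTri} (he : e.Nice) :
    MeasurableSet {ω : PVSample | PvLF (pvConf ω) ∧ e.Holds (vorUn (cfSites (pvConf ω)) {v | (v, c) ∈ (pvConf ω).pts})} := by
  have e1 : {ω : PVSample | PvLF (pvConf ω) ∧ e.Holds (vorUn (cfSites (pvConf ω)) {v | (v, c) ∈ (pvConf ω).pts})}
      = {ω | PvLF (pvConf ω)} ∩ {ω | ∃ i j : DelgpIx, (i.2 < ω.1 i.1 ∧ (ω.2 i).2 = c) ∧ (vorCell (cfSites (pvConf ω)) (delgpW ω i) ∩ (e.S ∩ e.K)).Nonempty ∧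
        (vorCell (cfSites (pvConf ω)) (delgpW ω j) ∩ (e.T ∩ e.K)).Nonempty ∧ Relation.ReflTransGen (VorchRx c e.K ω) i j} := by
    ext ω
    simp only [mem_ofPred_eq, mem_inter_iff]
    exact and_congr_right fun h => vorch_holds_ix c ω (delgp_lf_of_pvlf h) he.1
  rw [e1]
  exact vorch_meas_lf.inter (measurableSet_setOfPred.2 (vorch_meas_chain c he))

/-- **K5**: black connection events on the frozen sample space -/
theorem vorch_meas_holds {e : RswTri} (he : e.Nice) : MeasurableSet {ω : PVSample | PvLF (pvConf ω) ∧ e.Holds (pvBlack ω)} := by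
  have := vorch_meas_holds_col true he
  simpa only [pvBlack_eq, cfBlack_eq_vor] using this

/-- **K5 on configurations**, the form consumed by `pv_fkg_ev'` -/
theorem vorch_meas_holds_conf {e : RswTri} (he : e.Nice) : MeasurableSet ({η : Conf PvPt | e.Holds (cfBlack η)} ∩ {η | PvLF η}) := by
  have h1 : MeasurableSet (pvConf ⁻¹' {η : Conf PvPt | PvLF η ∧ e.Holds (cfBlack η)}) := by
    have := vorch_meas_holds he
    simp only [pvBlack_eq] at this
    exact this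
  have h2 := pvcn_bridge h1
  have e1 : {η : Conf PvPt | e.Holds (cfBlack η)} ∩ {η | PvLF η} = {η : Conf PvPt | PvLF η ∧ e.Holds (cfBlack η)} ∩ {η | PvLF η} := by
    ext η
    simp only [mem_inter_iff, mem_ofPred_eq]
    tauto
  rw [e1]
  exact h2

/-- the same for the white set `cfBlack (flip η)` -/
theorem vorch_meas_holds_white {e : RswTri} (he : e.Nice) :
    MeasurableSet ({η : Conf PvPt | e.Holds (cfBlack (Conf.image (Prod.map id not) η))} ∩ {η | PvLF η}) := by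
  have h1 : MeasurableSet (pvConf ⁻¹' {η : Conf PvPt | PvLF η ∧ e.Holds (cfBlack (Conf.image (Prod.map id not) η))}) := by
    have := vorch_meas_holds_col false he
    simp only [vorc_cfBlack_flip]
    exact this
  have h2 := pvcn_bridge h1
  have e1 : {η : Conf PvPt | e.Holds (cfBlack (Conf.image (Prod.map id not) η))} ∩ {η | PvLF η}
      = {η : Conf PvPt | PvLF η ∧ e.Holds (cfBlack (Conf.image (Prod.map id not) η))} ∩ {η | PvLF η} := by
    ext η
    simp only [mem_inter_iff, mem_ofPred_eq]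
    tauto
  rw [e1]
  exact h2

/-- null-measurability for the laws -/
theorem vorch_null_holds (ε : ℝ) {e : RswTri} (he : e.Nice) : NullMeasurableSet {ω : PVSample | e.Holds (pvBlack ω)} (pvLaw ε) := by
  have h1 := (vorch_meas_holds he).nullMeasurableSet (μ := pvLaw ε)
  refine h1.congr ?_
  have hae : ∀ᵐ ω ∂(pvLaw ε), PvLF (pvConf ω) := by
    filter_upwards [pvcn_pos_ae ε] with ω hω using pvcn_LF_conf ω hω
  filter_upwards [hae] with ω hω
  apply propext
  exact ⟨fun h => h.2, fun h => ⟨hω, h⟩⟩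

theorem vorch_null_holds_conf (ε : ℝ) {e : RswTri} (he : e.Nice) : NullMeasurableSet {η : Conf PvPt | e.Holds (cfBlack η)} (pvP ε) := by
  have h1 := (vorch_meas_holds_conf he).nullMeasurableSet (μ := pvP ε)
  refine h1.congr ?_
  filter_upwards [pvcn_LF_ae ε] with η hη
  apply propext
  exact ⟨fun h => h.1, fun h => ⟨h, hη⟩⟩

theorem vorch_meas_holds_list (l : List RswTri) (hl : ∀ e ∈ l, e.Nice) : MeasurableSet {ω : PVSample | PvLF (pvConf ω) ∧ ∀ e ∈ l, e.Holds (pvBlack ω)} := by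
  induction l with
  | nil => simpa using vorch_meas_lf
  | cons e l ih =>
    have e1 : {ω : PVSample | PvLF (pvConf ω) ∧ ∀ e' ∈ e :: l, e'.Holds (pvBlack ω)}
        = {ω | PvLF (pvConf ω) ∧ e.Holds (pvBlack ω)} ∩ {ω | PvLF (pvConf ω) ∧ ∀ e' ∈ l, e'.Holds (pvBlack ω)} := by
      ext ω
      simp only [List.mem_cons, forall_eq_or_imp, mem_ofPred_eq, mem_inter_iff]
      tauto
    rw [e1]
    exact (vorch_meas_holds (hl e List.mem_cons_self)).inter (ih fun e' he' => hl e' (List.mem_cons_of_mem _ he'))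

/-! ## 6. the vertex crossing events `PvVC` (`Defs/Top`) are measurable: no local finiteness, no general position -/

/-- the step relation of `PvVC` on indices -/
def VorchVx (W : Set ℂ) (ω : PVSample) (i j : DelgpIx) : Prop :=
  (j.2 < ω.1 j.1 ∧ (ω.2 j).2 = true ∧ delgpW ω j ∈ W) ∧
    (vorCell (cfSites (pvConf ω)) (delgpW ω i) ∩ vorCell (cfSites (pvConf ω)) (delgpW ω j) ∩ univ).Nonempty

theorem vorch_eqns_cite3 : True := by
  have := @VorchVx.eq_1
  trivial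

theorem vorch_bk_iff (ω : PVSample) (W : Set ℂ) (v : ℂ) :
    PvBk (pvConf ω) W v ↔ ∃ i : DelgpIx, (i.2 < ω.1 i.1 ∧ (ω.2 i).2 = true ∧ delgpW ω i ∈ W) ∧ v = delgpW ω i := by
  have h := vorch_col ω true
  constructor
  · rintro ⟨hv, hW⟩
    have : v ∈ {v | (v, true) ∈ (pvConf ω).pts} := hv
    rw [h] at this
    obtain ⟨i, hi, hc, rfl⟩ := this
    exact ⟨i, ⟨hi, hc, hW⟩, rfl⟩
  · rintro ⟨i, ⟨hi, hc, hW⟩, rfl⟩
    have : delgpW ω i ∈ {v | (v, true) ∈ (pvConf ω).pts} := by rw [h]; exact ⟨i, hi, hc, rfl⟩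
    exact ⟨this, hW⟩

theorem vorch_vc_iff (ω : PVSample) (W A B : Set ℂ) :
    PvVC (pvConf ω) W A B ↔ ∃ i j : DelgpIx, delgpW ω i ∈ A ∧ delgpW ω j ∈ B ∧ (i.2 < ω.1 i.1 ∧ (ω.2 i).2 = true ∧ delgpW ω i ∈ W) ∧
      Relation.ReflTransGen (VorchVx W ω) i j := by
  constructor
  · rintro ⟨u, v, hu, hv, hbk, hch⟩
    obtain ⟨i, hi, rfl⟩ := (vorch_bk_iff ω W u).1 hbk
    have key : ∀ b, Relation.ReflTransGen (fun a b => PvBk (pvConf ω) W b ∧ (cfCell (pvConf ω) a ∩ cfCell (pvConf ω) b).Nonempty) (delgpW ω i) b →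
        ∃ j : DelgpIx, b = delgpW ω j ∧ Relation.ReflTransGen (VorchVx W ω) i j := by
      intro b hb
      induction hb with
      | refl => exact ⟨i, rfl, Relation.ReflTransGen.refl⟩
      | tail _ hbc ih =>
        obtain ⟨j, rfl, hij⟩ := ih
        obtain ⟨hbk', hm⟩ := hbc
        obtain ⟨l, hl, rfl⟩ := (vorch_bk_iff ω W _).1 hbk'
        refine ⟨l, rfl, hij.tail ⟨hl, ?_⟩⟩
        rw [cfCell_eq_vor, cfCell_eq_vor] at hm
        rwa [inter_univ]
    obtain ⟨j, rfl, hij⟩ := key v hch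
    exact ⟨i, j, hu, hv, hi, hij⟩
  · rintro ⟨i, j, hu, hv, hi, hij⟩
    refine ⟨delgpW ω i, delgpW ω j, hu, hv, (vorch_bk_iff ω W _).2 ⟨i, hi, rfl⟩, ?_⟩
    refine Relation.ReflTransGen.lift (delgpW ω) ?_ _ _ hij
    rintro a b ⟨hb, hm⟩
    refine ⟨(vorch_bk_iff ω W _).2 ⟨b, hb, rfl⟩, ?_⟩
    rw [cfCell_eq_vor, cfCell_eq_vor]
    rwa [inter_univ] at hm

theorem vorch_meas_vx {W : Set ℂ} (hW : MeasurableSet W) (i j : DelgpIx) : Measurable fun ω : PVSample => VorchVx W ω i j :=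
  ((vorch_meas_act j).and ((vorch_meas_colour j true).and (vorch_meas_mem hW j))).and (vorch_meas_meet_sigma isSigmaCompact_univ i j)

/-- **the vertex crossing events are measurable on the frozen sample space** -/
theorem vorch_meas_vc {W A B : Set ℂ} (hW : MeasurableSet W) (hA : MeasurableSet A) (hB : MeasurableSet B) :
    MeasurableSet {ω : PVSample | PvVC (pvConf ω) W A B} := by
  simp only [vorch_vc_iff]
  rw [measurableSet_setOfPred]
  exact Measurable.exists fun i => Measurable.exists fun j => (vorch_meas_mem hA i).and ((vorch_meas_mem hB j).and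
    (((vorch_meas_act i).and ((vorch_meas_colour i true).and (vorch_meas_mem hW i))).and (vorch_meas_rtg (fun i j => vorch_meas_vx hW i j) i j)))

/-- on configurations -/
theorem vorch_meas_vc_conf {W A B : Set ℂ} (hW : MeasurableSet W) (hA : MeasurableSet A) (hB : MeasurableSet B) :
    MeasurableSet ({η : Conf PvPt | PvVC η W A B} ∩ {η | PvLF η}) :=
  pvcn_bridge (A := {η : Conf PvPt | PvVC η W A B}) (vorch_meas_vc hW hA hB)

theorem vorch_vc_connected_aux {η : Conf PvPt} {W : Set ℂ} {u b : ℂ} (hbk : PvBk η W u)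
    (hch : Relation.ReflTransGen (fun a b => PvBk η W b ∧ (cfCell η a ∩ cfCell η b).Nonempty) u b) :
    ∃ S : Set ℂ, IsPreconnected S ∧ u ∈ S ∧ vorCell (cfSites η) b ⊆ S ∧ S ⊆ vorUn (cfSites η) {v | PvBk η W v} := by
  induction hch with
  | refl => exact ⟨vorCell (cfSites η) u, (vor_convex_cell _ u).isPreconnected, vor_self_mem _ u, Subset.rfl, fun z hz => ⟨u, hbk, hz⟩⟩
  | tail _ hbc ih =>
    rename_i b c _
    obtain ⟨S, hS, huS, hbS, hSU⟩ := ih
    obtain ⟨hc, w, hwb, hwc⟩ := hbc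
    rw [cfCell_eq_vor] at hwb hwc
    exact ⟨S ∪ vorCell (cfSites η) c, hS.union w (hbS hwb) hwc (vor_convex_cell _ c).isPreconnected, Or.inl huS, subset_union_right,
      union_subset hSU fun z hz => ⟨c, hc, hz⟩⟩

/-- a vertex crossing gives a connected black set: the union of the cells of the chain (any site set) -/
theorem vorch_vc_connected {η : Conf PvPt} {W A B : Set ℂ} (h : PvVC η W A B) :
    ∃ u v : ℂ, u ∈ A ∧ v ∈ B ∧ ∃ S : Set ℂ, IsConnected S ∧ u ∈ S ∧ v ∈ S ∧ S ⊆ vorUn (cfSites η) {v | PvBk η W v} := by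
  obtain ⟨u, v, hu, hv, hbk, hch⟩ := h
  obtain ⟨S, hS, huS, hvS, hSU⟩ := vorch_vc_connected_aux hbk hch
  exact ⟨u, v, hu, hv, S, ⟨⟨u, huS⟩, hS⟩, huS, hvS (vor_self_mem _ v), hSU⟩

theorem vorch_bk_un_subset (η : Conf PvPt) (W : Set ℂ) : vorUn (cfSites η) {v | PvBk η W v} ⊆ cfBlack η := by
  rw [cfBlack_eq_vor]
  rintro z ⟨v, hv, hz⟩
  exact ⟨v, hv.1, hz⟩

end Claimed.Agent.R289
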